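import Mathlib
import Crest.Prelude.Def_FinProb
import Crest.Prelude.Def_RandomGraph

/-!
S0076 glue (B2): from the hypothesis on expected copy counts to
`1/2 ≤ κ(F) * p ^ |F|`, `κ(F)` = number of distinct images of the edge set `F` under
embeddings `W ↪ Fin n`.
-/

set_option autoImplicit false

namespace Crest.Agent.R76

open Crest.CombinatoricsR.RandomGraph Crest.FinProb

section Bernoulli

variable {ι : Type*} [Fintype ι] [DecidableEq ι]

omit [DecidableEq ι] in
lemma bernoulliWeight_nonneg (p : ℝ) (hp0 : 0 ≤ p) (hp1 : p ≤ 1) (ω : ι → Bool) :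
    0 ≤ bernoulliWeight p ω := by
  unfold bernoulliWeight
  refine Finset.prod_nonneg ?_
  intro i _
  split_ifs
  · exact hp0
  · linarith

/-- The probability that all coins of `S` show heads is `p ^ |S|`. -/
lemma sum_bernoulliWeight_all_true (p : ℝ) (S : Finset ι) :
    ∑ ω : ι → Bool, bernoulliWeight p ω * (if ∀ i ∈ S, ω i = true then (1 : ℝ) else 0)
      = p ^ S.card := by
  have h1 : ∀ ω : ι → Bool,
      bernoulliWeight p ω * (if ∀ i ∈ S, ω i = true then (1 : ℝ) else 0)
        = ∏ i, ((if ω i then p else 1 - p) * (if i ∈ S then (if ω i then (1 : ℝ) else 0) else 1)) := by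
    intro ω
    rw [Finset.prod_mul_distrib]
    unfold bernoulliWeight
    congr 1
    by_cases h : ∀ i ∈ S, ω i = true
    · rw [if_pos h]
      symm
      apply Finset.prod_eq_one
      intro i _
      by_cases hi : i ∈ S
      · simp [hi, h i hi]
      · simp [hi]
    · rw [if_neg h]
      push Not at h
      obtain ⟨i, hi, hω⟩ := h
      symm
      apply Finset.prod_eq_zero (Finset.mem_univ i)
      simp [hi, hω]
  simp_rw [h1]
  have h2 := (Finset.prod_univ_sum (fun _ : ι => (Finset.univ : Finset Bool))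
    (fun i b => ((if b then p else 1 - p) * (if i ∈ S then (if b then (1 : ℝ) else 0) else 1)))).symm
  rw [Fintype.piFinset_univ] at h2
  rw [h2]
  have h3 : ∀ i : ι, ∑ b : Bool, ((if b then p else 1 - p) *
      (if i ∈ S then (if b then (1 : ℝ) else 0) else 1)) = if i ∈ S then p else 1 := by
    intro i
    by_cases hi : i ∈ S <;> simp [hi]
  simp_rw [h3]
  rw [Finset.prod_ite]
  simp

end Bernoulli

section Graph

variable {W : Type} [Fintype W] [DecidableEq W]

/-- The subgraph of `H` with edge set `F` and vertex set the endpoints of the edges of `F`. -/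
def subOf (H : SimpleGraph W) [DecidableRel H.Adj] (F : Finset (Sym2 W))
    (hF : F ⊆ H.edgeFinset) : H.Subgraph where
  verts := {v | ∃ w, s(v, w) ∈ F}
  Adj a b := s(a, b) ∈ F
  adj_sub := by
    intro a b h
    have := hF h
    simpa using this
  edge_vert := by
    intro a b h
    exact ⟨b, h⟩
  symm := ⟨by
    intro a b h
    show s(b, a) ∈ F
    rwa [Sym2.eq_swap]⟩

omit [DecidableEq W] in
/-- Extending an injective map defined on a subset to an embedding. -/
lemma exists_embedding_extend {n : ℕ} (hW : Fintype.card W ≤ n) (s : Set W)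
    (ψ : s → Fin n) (hψ : Function.Injective ψ) :
    ∃ φ : W ↪ Fin n, ∀ x : s, φ x = ψ x := by
  classical
  have hcard : Fintype.card {w : W // w ∉ s} ≤ Fintype.card {y : Fin n // y ∉ Set.range ψ} := by
    have h1 : Fintype.card {w : W // w ∉ s} = Fintype.card W - Fintype.card s := by
      rw [Fintype.card_subtype_compl]
    have h2 : Fintype.card {y : Fin n // y ∉ Set.range ψ}
        = Fintype.card (Fin n) - Fintype.card (Set.range ψ) := by
      rw [Fintype.card_subtype_compl]
    have h3 : Fintype.card (Set.range ψ) = Fintype.card s := Set.card_range_of_injective hψ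
    rw [h1, h2, h3, Fintype.card_fin]
    omega
  obtain ⟨g⟩ := Function.Embedding.nonempty_of_card_le hcard
  refine ⟨⟨fun w => if h : w ∈ s then ψ ⟨w, h⟩ else (g ⟨w, h⟩).1, ?_⟩, ?_⟩
  · intro a b hab
    simp only at hab
    by_cases ha : a ∈ s <;> by_cases hb : b ∈ s
    · rw [dif_pos ha, dif_pos hb] at hab
      have := hψ hab
      simpa using this
    · rw [dif_pos ha, dif_neg hb] at hab
      exact absurd ⟨⟨a, ha⟩, hab⟩ (g ⟨b, hb⟩).2
    · rw [dif_neg ha, dif_pos hb] at hab
      exact absurd ⟨⟨b, hb⟩, hab.symm⟩ (g ⟨a, ha⟩).2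
    · rw [dif_neg ha, dif_neg hb] at hab
      have := g.injective (Subtype.ext hab)
      simpa using this
  · intro x
    show (if h : (x : W) ∈ s then ψ ⟨x, h⟩ else (g ⟨x, h⟩).1) = ψ x
    rw [dif_pos x.2]

/-- The family of images of the edge set `F` under embeddings `W ↪ Fin n`. -/
noncomputable def images (n : ℕ) (F : Finset (Sym2 W)) : Finset (Finset (Sym2 (Fin n))) :=
  Finset.univ.image (fun φ : W ↪ Fin n => F.image (Sym2.map φ))

omit [DecidableEq W] in
lemma verts_iff_of_iso {n : ℕ} (H : SimpleGraph W) [DecidableRel H.Adj] (F : Finset (Sym2 W))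
    (hF : F ⊆ H.edgeFinset) (G : SimpleGraph (Fin n)) (G' : G.Subgraph)
    (e : (subOf H F hF).coe ≃g G'.coe) (v : Fin n) :
    v ∈ G'.verts ↔ ∃ w, G'.Adj v w := by
  constructor
  · intro hv
    obtain ⟨w0, hw0⟩ := (e.symm ⟨v, hv⟩).2
    have hw0' : w0 ∈ (subOf H F hF).verts := ⟨(e.symm ⟨v, hv⟩).1, by rwa [Sym2.eq_swap]⟩
    have hadj : (subOf H F hF).coe.Adj (e.symm ⟨v, hv⟩) ⟨w0, hw0'⟩ := hw0
    have h2 := e.map_rel_iff.2 hadj
    rw [e.apply_symm_apply] at h2
    exact ⟨(e ⟨w0, hw0'⟩).1, h2⟩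
  · rintro ⟨w, hw⟩
    exact G'.edge_vert hw

lemma copyCount_le {n : ℕ} (hW : Fintype.card W ≤ n) (H : SimpleGraph W) [DecidableRel H.Adj]
    (F : Finset (Sym2 W)) (hF : F ⊆ H.edgeFinset) (G : SimpleGraph (Fin n)) :
    G.copyCount (subOf H F hF).coe
      ≤ (open Classical in (images n F).filter (fun T => ∀ z ∈ T, z ∈ G.edgeSet)).card := by
  classical
  unfold SimpleGraph.copyCount
  refine Finset.card_le_card_of_injOn
    (fun G' : G.Subgraph => Finset.univ.filter (fun z => z ∈ G'.edgeSet)) ?_ ?_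
  · intro G' hG'
    simp only [Finset.coe_filter, Finset.mem_univ, true_and, Set.mem_ofPred_eq] at hG'
    obtain ⟨e⟩ := hG'
    obtain ⟨φ, hφ⟩ := exists_embedding_extend hW (subOf H F hF).verts (fun x => (e x).1)
      (fun x y hxy => e.injective (Subtype.ext hxy))
    simp only [Finset.coe_filter, Set.mem_ofPred_eq]
    refine ⟨?_, ?_⟩
    · unfold images
      rw [Finset.mem_image]
      refine ⟨φ, Finset.mem_univ _, ?_⟩
      ext z
      simp only [Finset.mem_image, Finset.mem_filter, Finset.mem_univ, true_and]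
      constructor
      · rintro ⟨z0, hz0, rfl⟩
        induction z0 using Sym2.ind with
        | _ a0 b0 =>
          have ha0 : a0 ∈ (subOf H F hF).verts := ⟨b0, hz0⟩
          have hb0 : b0 ∈ (subOf H F hF).verts := ⟨a0, by rwa [Sym2.eq_swap]⟩
          have hadj : (subOf H F hF).coe.Adj ⟨a0, ha0⟩ ⟨b0, hb0⟩ := hz0
          have h2 := e.map_rel_iff.2 hadj
          have h3 : G'.Adj (e ⟨a0, ha0⟩).1 (e ⟨b0, hb0⟩).1 := h2
          rw [Sym2.map_mk, SimpleGraph.Subgraph.mem_edgeSet]
          have e1 := hφ ⟨a0, ha0⟩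
          have e2 := hφ ⟨b0, hb0⟩
          simp only at e1 e2
          rw [e1, e2]
          exact h3
      · intro hz
        induction z using Sym2.ind with
        | _ a b =>
          rw [SimpleGraph.Subgraph.mem_edgeSet] at hz
          have ha : a ∈ G'.verts := G'.edge_vert hz
          have hb : b ∈ G'.verts := G'.edge_vert hz.symm
          have hadj : G'.coe.Adj ⟨a, ha⟩ ⟨b, hb⟩ := hz
          have h2 := e.symm.map_rel_iff.2 hadj
          have h3 : s((e.symm ⟨a, ha⟩).1, (e.symm ⟨b, hb⟩).1) ∈ F := h2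
          refine ⟨_, h3, ?_⟩
          rw [Sym2.map_mk]
          have e1 := hφ (e.symm ⟨a, ha⟩)
          have e2 := hφ (e.symm ⟨b, hb⟩)
          simp only [e.apply_symm_apply] at e1 e2
          rw [e1, e2]
    · intro z hz
      rw [Finset.mem_filter] at hz
      exact G'.edgeSet_subset hz.2
  · intro G1 h1 G2 h2 h12
    simp only [Finset.coe_filter, Finset.mem_univ, true_and, Set.mem_ofPred_eq] at h1 h2
    obtain ⟨e1⟩ := h1
    obtain ⟨e2⟩ := h2
    have hadj : ∀ a b, G1.Adj a b ↔ G2.Adj a b := by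
      intro a b
      have := Finset.ext_iff.1 h12 s(a, b)
      simpa using this
    refine SimpleGraph.Subgraph.ext ?_ ?_
    · ext v
      rw [verts_iff_of_iso H F hF G G1 e1, verts_iff_of_iso H F hF G G2 e2]
      simp only [hadj]
    · ext a b
      exact hadj a b

lemma mem_edgeSet_graphOf {n : ℕ} (ω : EdgeSlot n → Bool) (z : Sym2 (Fin n)) :
    z ∈ (graphOf ω).edgeSet ↔ ∃ h : ¬ z.IsDiag, ω ⟨z, h⟩ = true := by
  unfold graphOf
  rw [SimpleGraph.edgeSet_fromEdgeSet]
  constructor
  · rintro ⟨h, _⟩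
    exact h
  · rintro ⟨h, hω⟩
    exact ⟨⟨h, hω⟩, by simpa [Sym2.mem_diagSet] using h⟩

/-- The probability that all the pairs of a set `T` of non-diagonal pairs are edges. -/
lemma sum_weight_subset {n : ℕ} (p : ℝ) (T : Finset (Sym2 (Fin n)))
    (hT : ∀ z ∈ T, ¬ z.IsDiag) :
    ∑ ω : EdgeSlot n → Bool, bernoulliWeight p ω *
      (open Classical in if ∀ z ∈ T, z ∈ (graphOf ω).edgeSet then (1 : ℝ) else 0) = p ^ T.card := by
  classical
  have hcard : (T.subtype (fun z => ¬ z.IsDiag)).card = T.card := by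
    rw [Finset.card_subtype, Finset.filter_true_of_mem hT]
  rw [← hcard, ← sum_bernoulliWeight_all_true p (T.subtype (fun z => ¬ z.IsDiag))]
  refine Finset.sum_congr rfl ?_
  intro ω _
  congr 1
  have hiff : (∀ z ∈ T, z ∈ (graphOf ω).edgeSet)
      ↔ ∀ i ∈ T.subtype (fun z : Sym2 (Fin n) => ¬ z.IsDiag), ω i = true := by
    constructor
    · intro h i hi
      rw [Finset.mem_subtype] at hi
      obtain ⟨h1, h2⟩ := (mem_edgeSet_graphOf ω i.1).1 (h i.1 hi)
      exact h2
    · intro h z hz
      rw [mem_edgeSet_graphOf]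
      exact ⟨hT z hz, h ⟨z, hT z hz⟩ (by rw [Finset.mem_subtype]; exact hz)⟩
  simp only [hiff]

lemma images_spec {n : ℕ} (H : SimpleGraph W) [DecidableRel H.Adj] (F : Finset (Sym2 W))
    (hF : F ⊆ H.edgeFinset) (T : Finset (Sym2 (Fin n))) (hT : T ∈ images n F) :
    T.card = F.card ∧ ∀ z ∈ T, ¬ z.IsDiag := by
  unfold images at hT
  rw [Finset.mem_image] at hT
  obtain ⟨φ, _, rfl⟩ := hT
  refine ⟨Finset.card_image_of_injective _ (Sym2.map.injective φ.injective), ?_⟩
  intro z hz
  rw [Finset.mem_image] at hz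
  obtain ⟨z0, hz0, rfl⟩ := hz
  rw [Sym2.isDiag_map φ.injective]
  exact SimpleGraph.not_isDiag_of_mem_edgeFinset (hF hz0)

/-- (B2) The hypothesis of S0076 in counting form. -/
theorem half_le_kappa (n : ℕ) (H : SimpleGraph W)
    [DecidableRel H.Adj] (hW : Fintype.card W ≤ n) (p : ℝ) (hp0 : 0 ≤ p) (hp1 : p ≤ 1)
    (hE : ∀ F : H.Subgraph, (1 : ℝ) / 2 ≤ gnpExpect n p (fun G => (G.copyCount F.coe : ℝ)))
    (F : Finset (Sym2 W)) (hF : F ⊆ H.edgeFinset) :
    (1 : ℝ) / 2 ≤ ((images n F).card : ℝ) * p ^ F.card := by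
  classical
  refine (hE (subOf H F hF)).trans ?_
  unfold gnpExpect
  calc ∑ ω : EdgeSlot n → Bool, bernoulliWeight p ω *
          ((graphOf ω).copyCount (subOf H F hF).coe : ℝ)
      ≤ ∑ ω : EdgeSlot n → Bool, bernoulliWeight p ω *
          ∑ T ∈ images n F, (if ∀ z ∈ T, z ∈ (graphOf ω).edgeSet then (1 : ℝ) else 0) := by
        refine Finset.sum_le_sum ?_
        intro ω _
        refine mul_le_mul_of_nonneg_left ?_ (bernoulliWeight_nonneg p hp0 hp1 ω)
        have h := copyCount_le hW H F hF (graphOf ω)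
        rw [Finset.card_filter] at h
        have h' : ((graphOf ω).copyCount (subOf H F hF).coe : ℝ)
            ≤ ((∑ T ∈ images n F, if ∀ z ∈ T, z ∈ (graphOf ω).edgeSet then 1 else 0 : ℕ) : ℝ) := by
          exact_mod_cast h
        refine h'.trans (le_of_eq ?_)
        push_cast
        rfl
    _ = ∑ T ∈ images n F, ∑ ω : EdgeSlot n → Bool, bernoulliWeight p ω *
          (if ∀ z ∈ T, z ∈ (graphOf ω).edgeSet then (1 : ℝ) else 0) := by
        simp_rw [Finset.mul_sum]
        rw [Finset.sum_comm]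
    _ = ∑ T ∈ images n F, p ^ F.card := by
        refine Finset.sum_congr rfl ?_
        intro T hT
        obtain ⟨h1, h2⟩ := images_spec H F hF T hT
        rw [← h1]
        exact sum_weight_subset p T h2
    _ = ((images n F).card : ℝ) * p ^ F.card := by
        rw [Finset.sum_const, nsmul_eq_mul]

end Graph

end Crest.Agent.R76
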