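import Mathlib
import Crest.Prelude.Def_FinProb
import Crest.Prelude.Def_RandomGraph
import Crest.Agent.R76.GlueExp

/-!
S0076 glue (B1): the containment event contains the event
"all slots of `φ(E(H))` show heads for some embedding `φ : W ↪ Fin n`".
-/

set_option autoImplicit false

namespace Crest.Agent.R76

open Crest.CombinatoricsR.RandomGraph Crest.FinProb

section Mono

variable {ι : Type*} [Fintype ι] [DecidableEq ι]

lemma bernoulliProb_mono (p : ℝ) (hp0 : 0 ≤ p) (hp1 : p ≤ 1) {A B : Set (ι → Bool)}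
    (hAB : A ⊆ B) : bernoulliProb p A ≤ bernoulliProb p B := by
  classical
  unfold bernoulliProb
  refine Finset.sum_le_sum_of_subset_of_nonneg ?_ ?_
  · intro ω hω
    rw [Finset.mem_filter] at hω ⊢
    exact ⟨hω.1, hAB hω.2⟩
  · intro ω _ _
    exact bernoulliWeight_nonneg p hp0 hp1 ω

end Mono

section Graph

variable {W : Type} [Fintype W] [DecidableEq W]

/-- The coin slots of the image of `E(H)` under `φ`. -/
noncomputable def slotsOf {n : ℕ} (H : SimpleGraph W) [DecidableRel H.Adj] (φ : W ↪ Fin n) :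
    Finset (EdgeSlot n) :=
  (H.edgeFinset.image (Sym2.map φ)).subtype (fun z : Sym2 (Fin n) => ¬ z.IsDiag)

lemma card_slotsOf {n : ℕ} (H : SimpleGraph W) [DecidableRel H.Adj] (φ : W ↪ Fin n) :
    (slotsOf H φ).card = H.edgeFinset.card := by
  classical
  have hmem : H.edgeFinset.image (Sym2.map φ) ∈ images n H.edgeFinset := by
    unfold images
    exact Finset.mem_image_of_mem _ (Finset.mem_univ φ)
  obtain ⟨h1, h2⟩ := images_spec H H.edgeFinset (Finset.Subset.refl _) _ hmem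
  unfold slotsOf
  rw [Finset.card_subtype, Finset.filter_true_of_mem h2, h1]

lemma mem_slotsOf {n : ℕ} (H : SimpleGraph W) [DecidableRel H.Adj] (φ : W ↪ Fin n)
    (i : EdgeSlot n) : i ∈ slotsOf H φ ↔ i.1 ∈ H.edgeFinset.image (Sym2.map φ) := by
  unfold slotsOf
  rw [Finset.mem_subtype]

lemma isContained_of_slots {n : ℕ} (H : SimpleGraph W) [DecidableRel H.Adj] (φ : W ↪ Fin n)
    (ω : EdgeSlot n → Bool) (h : ∀ i ∈ slotsOf H φ, ω i = true) :
    H.IsContained (graphOf ω) := by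
  refine ⟨⟨⟨φ, ?_⟩, φ.injective⟩⟩
  intro a b hab
  have hne : φ a ≠ φ b := fun hh => hab.ne (φ.injective hh)
  have hd : ¬ (s(φ a, φ b) : Sym2 (Fin n)).IsDiag := by
    simpa using hne
  have hmem : (⟨s(φ a, φ b), hd⟩ : EdgeSlot n) ∈ slotsOf H φ := by
    rw [mem_slotsOf, Finset.mem_image]
    exact ⟨s(a, b), by simpa using hab, by simp⟩
  have := h _ hmem
  rw [← SimpleGraph.mem_edgeSet, mem_edgeSet_graphOf]
  exact ⟨hd, this⟩

/-- (B1) -/
theorem bernoulliProb_le_gnpProb (n : ℕ) (H : SimpleGraph W) [DecidableRel H.Adj]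
    (q : ℝ) (hq0 : 0 ≤ q) (hq1 : q ≤ 1) :
    bernoulliProb q {ω : EdgeSlot n → Bool | ∃ φ : W ↪ Fin n, ∀ i ∈ slotsOf H φ, ω i = true}
      ≤ gnpProb n q {G | H.IsContained G} := by
  unfold gnpProb
  refine bernoulliProb_mono q hq0 hq1 ?_
  rintro ω ⟨φ, hφ⟩
  exact isContained_of_slots H φ ω hφ

end Graph

end Crest.Agent.R76
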