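import Mathlib
import Crest.Prelude.Def_FinProb
import Crest.Prelude.Def_RandomGraph
import Crest.Agent.R76.GlueExp
import Crest.Agent.R76.GlueProb

/-!
S0076 assembly: `SpreadLemma` (abstract, helper5's interface) + `KeyLemma C` (pure counting)
imply the statement of S0076, for every `C ≤ 128 * exp 50`.
-/

set_option autoImplicit false

namespace Crest.Agent.R76

open Crest.CombinatoricsR.RandomGraph Crest.FinProb

/-- The abstract spread lemma (interface of `SP.spread_lemma`), specialised to `Type`. -/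
def SpreadLemma : Prop :=
  ∀ {ι σ : Type} [Fintype ι] [DecidableEq ι] [Fintype σ] (S : σ → Finset ι) (ν : σ → ℝ)
    (_ : ∀ s, 0 ≤ ν s) (_ : ∑ s, ν s = 1) (ℓ : ℕ) (_ : 1 ≤ ℓ) (_ : ∀ s, (S s).card ≤ ℓ)
    (q : ℝ) (_ : 0 < q)
    (_ : ∀ T : Finset ι, ∑ s ∈ Finset.univ.filter (fun s => T ⊆ S s), ν s ≤ q ^ T.card),
    (1 : ℝ) / 2 ≤ bernoulliProb (min 1 (16 * q * (1 + Real.logb 2 ℓ)))
      {ω : ι → Bool | ∃ s, ∀ i ∈ S s, ω i = true}

/-- KEYLEMMA with constant `C`: pure finite counting.  If every edge subset `F` of `H` has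
`κ(F) p^|F| ≥ 1/2` (`κ(F)` = number of distinct images of `F` in `K_n`), then the uniformly random
embedding of `H` in `K_n` is `C p`-spread. -/
def KeyLemma (C : ℝ) : Prop :=
  ∀ (n : ℕ) (_ : 2 ≤ n) (W : Type) [Fintype W] [DecidableEq W] (H : SimpleGraph W)
    [DecidableRel H.Adj] (_ : Fintype.card W ≤ n) (_ : 1 ≤ H.edgeFinset.card)
    (p : ℝ) (_ : 0 < p) (_ : p ≤ 1)
    (_ : ∀ F : Finset (Sym2 W), F ⊆ H.edgeFinset →
      (1 : ℝ) / 2 ≤ ((images n F).card : ℝ) * p ^ F.card)
    (U : Finset (Sym2 (Fin n))),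
    ((Finset.univ.filter
        (fun φ : W ↪ Fin n => U ⊆ H.edgeFinset.image (Sym2.map φ))).card : ℝ)
      ≤ (C * p) ^ U.card * (Fintype.card (W ↪ Fin n) : ℝ)

theorem S0076_of (hSL : SpreadLemma) (C : ℝ) (hC0 : 0 < C) (hC : C ≤ 128 * Real.exp 50)
    (hK : KeyLemma C)
    (n : ℕ) (hn : 2 ≤ n) (W : Type) [Fintype W] [DecidableEq W] (H : SimpleGraph W)
    [DecidableRel H.Adj] (hW : Fintype.card W ≤ n) (hH : 1 ≤ H.edgeFinset.card)
    (p : ℝ) (hp0 : 0 ≤ p) (hp1 : p ≤ 1)
    (hE : ∀ F : H.Subgraph, (1 : ℝ) / 2 ≤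
      Crest.CombinatoricsR.RandomGraph.gnpExpect n p (fun G => (G.copyCount F.coe : ℝ))) :
    (1 : ℝ) / 2 ≤ Crest.CombinatoricsR.RandomGraph.gnpProb n
      (min 1 (2048 * Real.exp 50 * p * (1 + Real.logb 2 (H.edgeFinset.card : ℝ))))
      {G | H.IsContained G} := by
  classical
  have hκ := half_le_kappa n H hW p hp0 hp1 hE
  -- p > 0
  have hp : 0 < p := by
    rcases hp0.lt_or_eq with h | h
    · exact h
    · exfalso
      have := hκ H.edgeFinset (Finset.Subset.refl _)
      rw [← h, zero_pow (by omega), mul_zero] at this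
      linarith
  -- embeddings exist
  have hne : Nonempty (W ↪ Fin n) :=
    Function.Embedding.nonempty_of_card_le (by simpa using hW)
  have hN : (0 : ℝ) < (Fintype.card (W ↪ Fin n) : ℝ) := by
    exact_mod_cast Fintype.card_pos
  set N : ℝ := (Fintype.card (W ↪ Fin n) : ℝ) with hNdef
  set q : ℝ := 128 * Real.exp 50 * p with hq
  have hq0 : 0 < q := by positivity
  have hlog : 0 ≤ Real.logb 2 (H.edgeFinset.card : ℝ) := by
    apply Real.logb_nonneg (by norm_num)
    exact_mod_cast hH
  have key := hSL (ι := EdgeSlot n) (σ := W ↪ Fin n) (fun φ => slotsOf H φ) (fun _ => 1 / N)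
    (fun _ => by positivity)
    (by
      rw [Finset.sum_const, Finset.card_univ, nsmul_eq_mul, ← hNdef]
      field_simp)
    H.edgeFinset.card hH (fun φ => (card_slotsOf H φ).le) q hq0
    (by
      intro T
      rw [Finset.sum_const, nsmul_eq_mul]
      have h1 := hK n hn W H hW hH p hp hp1 hκ (T.map (Function.Embedding.subtype _))
      rw [Finset.card_map] at h1
      have h2 : (Finset.univ.filter (fun φ : W ↪ Fin n => T ⊆ slotsOf H φ))
          = Finset.univ.filter (fun φ : W ↪ Fin n =>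
              T.map (Function.Embedding.subtype _) ⊆ H.edgeFinset.image (Sym2.map φ)) := by
        ext φ
        simp only [Finset.mem_filter, Finset.mem_univ, true_and]
        constructor
        · intro h z hz
          rw [Finset.mem_map] at hz
          obtain ⟨i, hi, rfl⟩ := hz
          exact (mem_slotsOf H φ i).1 (h hi)
        · intro h i hi
          rw [mem_slotsOf]
          exact h (Finset.mem_map_of_mem _ hi)
      rw [h2]
      have h3 : (C * p) ^ T.card ≤ q ^ T.card := by
        apply pow_le_pow_left₀ (by positivity)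
        rw [hq]
        exact mul_le_mul_of_nonneg_right hC hp.le
      calc _ ≤ ((C * p) ^ T.card * N) * (1 / N) :=
            mul_le_mul_of_nonneg_right h1 (by positivity)
        _ = (C * p) ^ T.card := by field_simp
        _ ≤ q ^ T.card := h3)
  have harg : 16 * q * (1 + Real.logb 2 (H.edgeFinset.card : ℝ))
      = 2048 * Real.exp 50 * p * (1 + Real.logb 2 (H.edgeFinset.card : ℝ)) := by
    rw [hq]; ring
  rw [harg] at key
  refine key.trans (bernoulliProb_le_gnpProb n H _ ?_ (min_le_left _ _))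
  apply le_min (by norm_num)
  positivity

end Crest.Agent.R76
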