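import Mathlib
import Crest.Prelude.Def_FinProb

/-!
# S0076: Bernoulli weights on finite sets

`wt q W` is the probability that a `q`-random subset of the finite type `X` equals `W`.
We prove: total mass one, the union lemma (the union of independent `q₁`- and `q₂`-random sets is
`q`-random with `1 - q = (1 - q₁) (1 - q₂)`), and the link with `Crest.FinProb.bernoulliWeight`.
-/

set_option autoImplicit false

namespace Crest.Agent.R76.Bern

open Finset

variable {X : Type*} [Fintype X] [DecidableEq X]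

/-- Bernoulli weight of a subset. -/
noncomputable def wt (q : ℝ) (W : Finset X) : ℝ := ∏ x, if x ∈ W then q else 1 - q

lemma wt_nonneg {q : ℝ} (h0 : 0 ≤ q) (h1 : q ≤ 1) (W : Finset X) : 0 ≤ wt q W :=
  Finset.prod_nonneg fun x _ => by split_ifs <;> linarith

/-- subsets of `X` as Boolean functions -/
def toSet : (X → Bool) ≃ Finset X where
  toFun ω := Finset.univ.filter (fun x => ω x = true)
  invFun W := fun x => decide (x ∈ W)
  left_inv ω := by ext x; simp
  right_inv W := by ext x; simp

@[simp] lemma mem_toSet (ω : X → Bool) (x : X) : x ∈ toSet ω ↔ ω x = true := by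
  simp [toSet]

lemma wt_toSet (q : ℝ) (ω : X → Bool) : wt q (toSet ω) = Crest.FinProb.bernoulliWeight q ω := by
  unfold wt Crest.FinProb.bernoulliWeight
  refine Finset.prod_congr rfl fun x _ => ?_
  simp [mem_toSet]

lemma sum_wt_eq (q : ℝ) (g : Finset X → ℝ) :
    ∑ W : Finset X, wt q W * g W
      = ∑ ω : X → Bool, Crest.FinProb.bernoulliWeight q ω * g (toSet ω) := by
  rw [← Equiv.sum_comp toSet]
  refine Finset.sum_congr rfl fun ω _ => ?_
  rw [wt_toSet]

/-- the general product formula on Boolean functions -/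
lemma bool_union (a b c : Bool → ℝ)
    (hct : c true = a true * b true + a true * b false + a false * b true)
    (hcf : c false = a false * b false) (F : (X → Bool) → ℝ) :
    ∑ ω₁ : X → Bool, ∑ ω₂ : X → Bool,
        (∏ x, a (ω₁ x)) * (∏ x, b (ω₂ x)) * F (fun x => ω₁ x || ω₂ x)
      = ∑ ω : X → Bool, (∏ x, c (ω x)) * F ω := by
  classical
  set T : Bool → Finset (Bool × Bool) := fun t => Finset.univ.filter (fun ab => (ab.1 || ab.2) = t)
    with hT
  have hc : ∀ t, c t = ∑ ab ∈ T t, a ab.1 * b ab.2 := by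
    intro t
    cases t
    · have : T false = {(false, false)} := by decide
      rw [this, hcf]; simp
    · have : T true = {(true, true), (true, false), (false, true)} := by decide
      rw [this, hct]
      rw [Finset.sum_insert (by decide), Finset.sum_insert (by decide), Finset.sum_singleton]
      ring
  have h1 : ∀ ω : X → Bool, (∏ x, c (ω x))
      = ∑ η ∈ Fintype.piFinset (fun x => T (ω x)), ∏ x, a (η x).1 * b (η x).2 := by
    intro ω
    rw [← Finset.prod_univ_sum (fun x => T (ω x)) (fun _ ab => a ab.1 * b ab.2)]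
    exact Finset.prod_congr rfl fun x _ => hc _
  have h2 : ∀ (ω : X → Bool) (η : X → Bool × Bool),
      η ∈ Fintype.piFinset (fun x => T (ω x)) ↔ (fun x => ((η x).1 || (η x).2)) = ω := by
    intro ω η
    simp only [Fintype.mem_piFinset, hT, Finset.mem_filter, Finset.mem_univ, true_and]
    exact ⟨fun h => funext h, fun h x => congrFun h x⟩
  calc ∑ ω₁ : X → Bool, ∑ ω₂ : X → Bool,
        (∏ x, a (ω₁ x)) * (∏ x, b (ω₂ x)) * F (fun x => ω₁ x || ω₂ x)
      = ∑ P : (X → Bool) × (X → Bool),
        (∏ x, a (P.1 x)) * (∏ x, b (P.2 x)) * F (fun x => P.1 x || P.2 x) := by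
        rw [Fintype.sum_prod_type]
    _ = ∑ η : X → Bool × Bool,
        (∏ x, a (η x).1 * b (η x).2) * F (fun x => ((η x).1 || (η x).2)) := by
        rw [← Equiv.sum_comp (Equiv.arrowProdEquivProdArrow X (fun _ => Bool) (fun _ => Bool))]
        refine Finset.sum_congr rfl fun η _ => ?_
        simp [Equiv.arrowProdEquivProdArrow, Finset.prod_mul_distrib]
    _ = ∑ ω : X → Bool, ∑ η ∈ Finset.univ.filter
          (fun η : X → Bool × Bool => (fun x => ((η x).1 || (η x).2)) = ω),
        (∏ x, a (η x).1 * b (η x).2) * F (fun x => ((η x).1 || (η x).2)) := by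
        rw [Finset.sum_fiberwise]
    _ = ∑ ω : X → Bool, (∏ x, c (ω x)) * F ω := by
        refine Finset.sum_congr rfl fun ω _ => ?_
        rw [h1, Finset.sum_mul]
        refine Finset.sum_congr ?_ ?_
        · ext η; simp [h2]
        · intro η hη
          rw [(h2 ω η).1 hη]

lemma toSet_or (ω₁ ω₂ : X → Bool) :
    toSet (fun x => ω₁ x || ω₂ x) = toSet ω₁ ∪ toSet ω₂ := by
  ext x; simp

/-- **Union lemma.** -/
lemma union_lemma (q₁ q₂ q : ℝ) (hq : 1 - q = (1 - q₁) * (1 - q₂)) (f : Finset X → ℝ) :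
    ∑ W₁ : Finset X, ∑ W₂ : Finset X, wt q₁ W₁ * wt q₂ W₂ * f (W₁ ∪ W₂)
      = ∑ W : Finset X, wt q W * f W := by
  have key := bool_union (X := X) (fun t => if t then q₁ else 1 - q₁)
    (fun t => if t then q₂ else 1 - q₂) (fun t => if t then q else 1 - q)
    (by simp only [if_true, Bool.false_eq_true, if_false]; linarith)
    (by simp only [Bool.false_eq_true, if_false]; linarith) (fun ω => f (toSet ω))
  rw [← Equiv.sum_comp toSet, ← Equiv.sum_comp toSet]
  calc ∑ ω₁ : X → Bool, ∑ W₂ : Finset X, wt q₁ (toSet ω₁) * wt q₂ W₂ * f (toSet ω₁ ∪ W₂)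
      = ∑ ω₁ : X → Bool, ∑ ω₂ : X → Bool,
          wt q₁ (toSet ω₁) * wt q₂ (toSet ω₂) * f (toSet ω₁ ∪ toSet ω₂) := by
        refine Finset.sum_congr rfl fun ω₁ _ => ?_
        rw [← Equiv.sum_comp toSet]
    _ = ∑ ω : X → Bool, wt q (toSet ω) * f (toSet ω) := by
        simp only [wt_toSet, ← toSet_or]
        exact key

lemma sum_wt (q : ℝ) : ∑ W : Finset X, wt q W = 1 := by
  have h := Finset.prod_add (fun _ : X => q) (fun _ : X => 1 - q) Finset.univ
  simp only [add_sub_cancel, Finset.prod_const_one, Finset.powerset_univ] at h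
  rw [h]
  refine Finset.sum_congr rfl fun W _ => ?_
  unfold wt
  rw [Finset.prod_ite, Finset.filter_mem_eq_inter, Finset.univ_inter]
  congr 1
  refine Finset.prod_congr ?_ fun _ _ => rfl
  ext x; simp

/-- adding a disjoint set `U` to `W` -/
lemma wt_mul_pow_le {q : ℝ} (h0 : 0 ≤ q) (h1 : q ≤ 1) (W U : Finset X) (hd : Disjoint W U) :
    wt q W * q ^ U.card ≤ wt q (W ∪ U) := by
  unfold wt
  have e1 : q ^ U.card = ∏ x : X, if x ∈ U then q else 1 := by
    rw [Finset.prod_ite, Finset.filter_mem_eq_inter, Finset.univ_inter]; simp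
  rw [e1, ← Finset.prod_mul_distrib]
  refine Finset.prod_le_prod (fun x _ => ?_) (fun x _ => ?_)
  · split_ifs <;> nlinarith
  · by_cases hW : x ∈ W
    · have hU : x ∉ U := fun h => (Finset.disjoint_left.1 hd hW h)
      simp [hW, hU]
    · by_cases hU : x ∈ U
      · simp only [hW, hU, if_false, if_true, Finset.mem_union, or_true]
        nlinarith
      · simp [hW, hU]

/-- probability of an event (as a predicate on subsets) -/
noncomputable def prob (q : ℝ) (A : Finset X → Prop) [DecidablePred A] : ℝ :=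
  ∑ W : Finset X, wt q W * (if A W then 1 else 0)

lemma prob_nonneg {q : ℝ} (h0 : 0 ≤ q) (h1 : q ≤ 1) (A : Finset X → Prop) [DecidablePred A] :
    0 ≤ prob q A :=
  Finset.sum_nonneg fun W _ => mul_nonneg (wt_nonneg h0 h1 W) (by split_ifs <;> norm_num)

lemma prob_le_one {q : ℝ} (h0 : 0 ≤ q) (h1 : q ≤ 1) (A : Finset X → Prop) [DecidablePred A] :
    prob q A ≤ 1 := by
  rw [← sum_wt (X := X) q]
  refine Finset.sum_le_sum fun W _ => ?_
  have := wt_nonneg h0 h1 W
  split_ifs <;> nlinarith

lemma prob_not (q : ℝ) (A : Finset X → Prop) [DecidablePred A] :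
    prob q (fun W => ¬ A W) = 1 - prob q A := by
  rw [← sum_wt (X := X) q]
  unfold prob
  rw [← Finset.sum_sub_distrib]
  refine Finset.sum_congr rfl fun W _ => ?_
  by_cases h : A W <;> simp [h]

/-- monotonicity of the probability of a decreasing event -/
lemma prob_anti {q₁ q : ℝ} (h0 : 0 ≤ q₁) (h01 : q₁ ≤ q) (h1 : q ≤ 1)
    (A : Finset X → Prop) [DecidablePred A] (hA : ∀ W W', W ⊆ W' → A W' → A W) :
    prob q A ≤ prob q₁ A := by
  rcases eq_or_lt_of_le (h01.trans h1) with h | hlt
  · have : q = q₁ := le_antisymm (h1.trans h.symm.le) h01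
    rw [this]
  · set q₂ : ℝ := (q - q₁) / (1 - q₁) with hq₂
    have hpos : 0 < 1 - q₁ := by linarith
    have h20 : 0 ≤ q₂ := div_nonneg (by linarith) hpos.le
    have h21 : q₂ ≤ 1 := by rw [hq₂, div_le_one hpos]; linarith
    have hq : 1 - q = (1 - q₁) * (1 - q₂) := by
      rw [hq₂]; field_simp; ring
    unfold prob
    rw [← union_lemma q₁ q₂ q hq]
    refine Finset.sum_le_sum fun W₁ _ => ?_
    calc ∑ W₂ : Finset X, wt q₁ W₁ * wt q₂ W₂ * (if A (W₁ ∪ W₂) then (1:ℝ) else 0)
        ≤ ∑ W₂ : Finset X, wt q₂ W₂ * (wt q₁ W₁ * (if A W₁ then (1:ℝ) else 0)) := by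
          refine Finset.sum_le_sum fun W₂ _ => ?_
          have a1 := wt_nonneg h0 (h01.trans h1) W₁
          have a2 := wt_nonneg h20 h21 W₂
          have a3 := mul_nonneg a1 a2
          by_cases hh : A (W₁ ∪ W₂)
          · have := hA _ _ Finset.subset_union_left hh
            simp only [hh, this, if_true]; linarith
          · simp only [hh, if_false]
            split_ifs <;> nlinarith
      _ = wt q₁ W₁ * (if A W₁ then (1:ℝ) else 0) := by
          rw [← Finset.sum_mul, sum_wt, one_mul]

/-- link with the frozen definition -/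
lemma bernoulliProb_eq (q : ℝ) (A : Finset X → Prop) [DecidablePred A] :
    Crest.FinProb.bernoulliProb q {ω : X → Bool | A (toSet ω)} = prob q A := by
  unfold Crest.FinProb.bernoulliProb prob
  rw [sum_wt_eq, Finset.sum_filter]
  refine Finset.sum_congr rfl fun ω _ => ?_
  by_cases h : A (toSet ω) <;> simp [h]

end Crest.Agent.R76.Bern
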