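import Mathlib
import Crest.Prelude.Def_RandomGraph
import Crest.Agent.R76.Bern

/-!
# S0076: common definitions (interface file, owner helper15)

Everything is phrased with *sets of pairs*: a "graph" is a `Finset (Sym2 V)`.
* `img f F`     : image of the set of pairs `F` under the vertex map `f`.
* `copies n F`  : the set of all images of `F` under injections `W ↪ Fin n`
                  (= the copies of `F` in `K_n`, isolated vertices ignored); `kappa n F` its size.
* `slots U`     : the edge slots (coins of the random graph) lying in `U`.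
-/

set_option autoImplicit false

namespace Crest.Agent.R76

open Finset Crest.CombinatoricsR.RandomGraph

variable {n : ℕ} {W : Type} [Fintype W] [DecidableEq W]

/-- image of a set of pairs under a vertex map -/
def img {V V' : Type} [DecidableEq V'] (f : V → V') (F : Finset (Sym2 V)) : Finset (Sym2 V') :=
  F.image (Sym2.map f)

/-- the copies of the set of pairs `F` in `K_n` -/
noncomputable def copies (n : ℕ) (F : Finset (Sym2 W)) : Finset (Finset (Sym2 (Fin n))) :=
  Finset.univ.image (fun φ : W ↪ Fin n => img φ F)

/-- the number of copies of `F` in `K_n` -/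
noncomputable def kappa (n : ℕ) (F : Finset (Sym2 W)) : ℕ := (copies n F).card

open Classical in
/-- the number of copies of `F` in `K_n` all of whose pairs are edges of `G` -/
noncomputable def presentCount (F : Finset (Sym2 W)) (G : SimpleGraph (Fin n)) : ℕ :=
  ((copies n F).filter (fun U => ∀ e ∈ U, e ∈ G.edgeSet)).card

/-- the coins lying in a set of pairs -/
def slots (U : Finset (Sym2 (Fin n))) : Finset (EdgeSlot n) :=
  Finset.univ.filter (fun z => z.1 ∈ U)

/-- the hypothesis of S0076 in counting form -/
def ExpHyp (n : ℕ) (E : Finset (Sym2 W)) (p : ℝ) : Prop :=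
  ∀ F ⊆ E, (1 : ℝ) / 2 ≤ (kappa n F : ℝ) * p ^ F.card

/-- the uniform random copy of `E` in `K_n` is `r`-spread -/
def Spread (n : ℕ) (E : Finset (Sym2 W)) (r : ℝ) : Prop :=
  ∀ U : Finset (Sym2 (Fin n)),
    ((Finset.univ.filter (fun φ : W ↪ Fin n => U ⊆ img φ E)).card : ℝ)
      ≤ r ^ U.card * (Fintype.card (W ↪ Fin n) : ℝ)

/-- number of copies of `F` inside `E` (both sets of pairs on `W`) -/
noncomputable def subCount (E F : Finset (Sym2 W)) : ℕ :=
  (E.powerset.filter (fun F' => ∃ σ : Equiv.Perm W, img σ F = F')).card

/-- the key lemma in "unlabelled" form -/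
def SpreadU (n : ℕ) (E : Finset (Sym2 W)) (r : ℝ) : Prop :=
  ∀ F ⊆ E, (subCount E F : ℝ) ≤ r ^ F.card * (kappa n F : ℝ)

end Crest.Agent.R76
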