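import Mathlib

/-!
# R76 (S0076), task T3x: extending partial injections

* `Ext.exists_perm`: any two embeddings `W ↪ Fin n` differ by a permutation of `Fin n`.
* `Ext.exists_extend`: an injection defined on a subset of `W` extends to an embedding of `W`
  as soon as `card W ≤ n`.
-/

set_option autoImplicit false

namespace Crest.Agent.R76.Ext

/-- transitivity: two embeddings of `W` into `Fin n` differ by a permutation of `Fin n`. -/
theorem exists_perm {n : ℕ} {W : Type} [Fintype W] [DecidableEq W] (φ ψ : W ↪ Fin n) :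
    ∃ π : Equiv.Perm (Fin n), ∀ x, π (φ x) = ψ x := by
  classical
  let e1 : W ≃ {y : Fin n // y ∈ Set.range φ} := Equiv.ofInjective φ φ.injective
  let e2 : W ≃ {y : Fin n // y ∈ Set.range ψ} := Equiv.ofInjective ψ ψ.injective
  let e : {y : Fin n // y ∈ Set.range φ} ≃ {y : Fin n // y ∈ Set.range ψ} := e1.symm.trans e2
  refine ⟨e.extendSubtype, fun x => ?_⟩
  have hx : φ x ∈ Set.range φ := ⟨x, rfl⟩
  rw [Equiv.extendSubtype_apply_of_mem e (φ x) hx]
  have h1 : e1.symm ⟨φ x, hx⟩ = x := by
    apply e1.injective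
    rw [Equiv.apply_symm_apply]
    rfl
  show ((e2 (e1.symm ⟨φ x, hx⟩) : {y : Fin n // y ∈ Set.range ψ}) : Fin n) = ψ x
  rw [h1]
  rfl

/-- an injection defined on a subset of `W` extends to all of `W` if `card W ≤ n`. -/
theorem exists_extend {n : ℕ} {W : Type} [Fintype W] [DecidableEq W]
    (hW : Fintype.card W ≤ n) (s : Set W) (f : s ↪ Fin n) :
    ∃ φ : W ↪ Fin n, ∀ x : s, φ x = f x := by
  classical
  obtain ⟨ψ⟩ : Nonempty (W ↪ Fin n) :=
    Function.Embedding.nonempty_of_card_le (by simpa using hW)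
  let g : s ↪ Fin n := (Function.Embedding.subtype _).trans ψ
  let e1 : s ≃ {y : Fin n // y ∈ Set.range g} := Equiv.ofInjective g g.injective
  let e2 : s ≃ {y : Fin n // y ∈ Set.range f} := Equiv.ofInjective f f.injective
  let e : {y : Fin n // y ∈ Set.range g} ≃ {y : Fin n // y ∈ Set.range f} := e1.symm.trans e2
  refine ⟨ψ.trans e.extendSubtype.toEmbedding, fun x => ?_⟩
  have hx : ψ (x : W) ∈ Set.range g := ⟨x, rfl⟩
  show e.extendSubtype (ψ (x : W)) = f x
  rw [Equiv.extendSubtype_apply_of_mem e (ψ (x : W)) hx]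
  have h1 : e1.symm ⟨ψ (x : W), hx⟩ = x := by
    apply e1.injective
    rw [Equiv.apply_symm_apply]
    rfl
  show ((e2 (e1.symm ⟨ψ (x : W), hx⟩) : {y : Fin n // y ∈ Set.range f}) : Fin n) = f x
  rw [h1]
  rfl

end Crest.Agent.R76.Ext
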