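import Mathlib
import Crest.Prelude.Def_FinProb

/-!
# R76 (S0076): the spread lemma for product measures (Park–Pham minimal fragments)
-/

set_option autoImplicit false
set_option linter.unusedSectionVars false
open Finset

namespace Crest.Agent.R76.SP

variable {ι : Type*} [Fintype ι] [DecidableEq ι]

/-- weight of the subset `W` under the product measure of density `ρ`. -/
noncomputable def bw (ρ : ℝ) (W : Finset ι) : ℝ := ρ ^ W.card * (1 - ρ) ^ (Wᶜ).card

theorem bw_nonneg {ρ : ℝ} (h0 : 0 ≤ ρ) (h1 : ρ ≤ 1) (W : Finset ι) : 0 ≤ bw ρ W :=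
  mul_nonneg (pow_nonneg h0 _) (pow_nonneg (by linarith) _)

theorem sum_bw (ρ : ℝ) : ∑ W : Finset ι, bw ρ W = 1 := by
  have := Fintype.sum_pow_mul_eq_add_pow ι ρ (1 - ρ)
  simp only [add_sub_cancel, one_pow] at this
  rw [← this]
  refine sum_congr rfl fun W _ => ?_
  rw [bw, card_compl]

/-- moving a disjoint set `R` into `W`. -/
theorem bw_union {ρ : ℝ} (hρ : ρ ≠ 0) {W R : Finset ι} (h : Disjoint W R) :
    bw ρ W = bw ρ (W ∪ R) * ((1 - ρ) / ρ) ^ R.card := by
  have h1 : (W ∪ R).card = W.card + R.card := card_union_of_disjoint h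
  have h2 : (Wᶜ).card = ((W ∪ R)ᶜ).card + R.card := by
    have hsub : R ⊆ Wᶜ := by
      intro x hx
      rw [mem_compl]
      exact fun hw => (disjoint_left.1 h hw) hx
    have : (W ∪ R)ᶜ = Wᶜ \ R := by
      ext x; simp
    rw [this, card_sdiff_of_subset hsub]
    have := card_le_card hsub
    omega
  rw [bw, bw, h1, h2, div_pow, pow_add, pow_add]
  field_simp

/-- the set of coordinates showing `true`. -/
def tr (ω : ι → Bool) : Finset ι := univ.filter fun i => ω i = true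

theorem mem_tr {ω : ι → Bool} {i : ι} : i ∈ tr ω ↔ ω i = true := by simp [tr]

/-- outcomes and subsets. -/
def trEquiv : (ι → Bool) ≃ Finset ι where
  toFun := tr
  invFun W := fun i => decide (i ∈ W)
  left_inv ω := by funext i; simp [tr]
  right_inv W := by ext i; simp [tr]

theorem bernoulliWeight_eq (ρ : ℝ) (ω : ι → Bool) :
    Crest.FinProb.bernoulliWeight ρ ω = bw ρ (tr ω) := by
  unfold Crest.FinProb.bernoulliWeight bw
  rw [prod_ite, prod_const, prod_const]
  congr 2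
  congr 1
  ext i
  simp [tr]

theorem sum_omega (ρ : ℝ) (F : Finset ι → ℝ) :
    ∑ ω : ι → Bool, Crest.FinProb.bernoulliWeight ρ ω * F (tr ω) = ∑ W : Finset ι, bw ρ W * F W := by
  refine Fintype.sum_equiv trEquiv _ _ fun ω => ?_
  rw [bernoulliWeight_eq]
  rfl

/-- the law of the union of two independent random sets, pointwise. -/
theorem weight_or (ρ p2 : ℝ) (ω : ι → Bool) :
    ∑ x ∈ (univ : Finset ((ι → Bool) × (ι → Bool))).filter
        (fun x => (fun i => x.1 i || x.2 i) = ω),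
      Crest.FinProb.bernoulliWeight ρ x.1 * Crest.FinProb.bernoulliWeight p2 x.2 =
    Crest.FinProb.bernoulliWeight (1 - (1 - ρ) * (1 - p2)) ω := by
  set c : Bool × Bool → ℝ := fun y => (if y.1 then ρ else 1 - ρ) * (if y.2 then p2 else 1 - p2)
    with hc
  set t : ι → Finset (Bool × Bool) := fun i => univ.filter fun y => (y.1 || y.2) = ω i with ht
  have h1 : Crest.FinProb.bernoulliWeight (1 - (1 - ρ) * (1 - p2)) ω = ∏ i, ∑ y ∈ t i, c y := by
    unfold Crest.FinProb.bernoulliWeight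
    refine prod_congr rfl fun i _ => ?_
    have hu : (univ : Finset (Bool × Bool)) =
        {(true, true), (true, false), (false, true), (false, false)} := by decide
    cases h : ω i
    · have : t i = {(false, false)} := by
        simp only [ht, h, hu]; decide
      rw [this]; simp [hc]
    · have : t i = {(true, true), (true, false), (false, true)} := by
        simp only [ht, h, hu]; decide
      rw [this, sum_insert (by decide), sum_insert (by decide), sum_singleton]
      simp [hc]; ring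
  rw [h1, prod_univ_sum]
  refine sum_nbij' (fun x i => (x.1 i, x.2 i)) (fun g => (fun i => (g i).1, fun i => (g i).2))
    ?_ ?_ ?_ ?_ ?_
  · intro x hx
    rw [mem_filter] at hx
    rw [Fintype.mem_piFinset]
    intro i
    simp only [ht, mem_filter, mem_univ, true_and]
    exact congrFun hx.2 i
  · intro g hg
    rw [Fintype.mem_piFinset] at hg
    rw [mem_filter]
    refine ⟨mem_univ _, ?_⟩
    funext i
    have := hg i
    simp only [ht, mem_filter, mem_univ, true_and] at this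
    exact this
  · intro x _; rfl
  · intro g _; rfl
  · intro x _
    unfold Crest.FinProb.bernoulliWeight
    rw [← prod_mul_distrib]

/-- **two-stage exposure** in the language of outcomes. -/
theorem two_stage_omega (ρ p2 : ℝ) (f : (ι → Bool) → ℝ) :
    ∑ ω, Crest.FinProb.bernoulliWeight (1 - (1 - ρ) * (1 - p2)) ω * f ω =
      ∑ ω1 : ι → Bool, ∑ ω2 : ι → Bool, Crest.FinProb.bernoulliWeight ρ ω1 *
        Crest.FinProb.bernoulliWeight p2 ω2 * f (fun i => ω1 i || ω2 i) := by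
  rw [← sum_product' (univ : Finset (ι → Bool)) (univ : Finset (ι → Bool))
    (fun ω1 ω2 => Crest.FinProb.bernoulliWeight ρ ω1 *
        Crest.FinProb.bernoulliWeight p2 ω2 * f (fun i => ω1 i || ω2 i))]
  rw [univ_product_univ, ← sum_fiberwise (univ : Finset ((ι → Bool) × (ι → Bool)))
    (fun x => (fun i => x.1 i || x.2 i))]
  refine sum_congr rfl fun ω _ => ?_
  rw [← weight_or ρ p2 ω, sum_mul]
  refine sum_congr rfl fun x hx => ?_
  rw [(mem_filter.1 hx).2]

theorem tr_or (ω1 ω2 : ι → Bool) : tr (fun i => ω1 i || ω2 i) = tr ω1 ∪ tr ω2 := by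
  ext i; simp [tr]

/-- **two-stage exposure**. -/
theorem two_stage (ρ p2 : ℝ) (F : Finset ι → ℝ) :
    ∑ W : Finset ι, bw (1 - (1 - ρ) * (1 - p2)) W * F W =
      ∑ W1 : Finset ι, bw ρ W1 * ∑ W2 : Finset ι, bw p2 W2 * F (W1 ∪ W2) := by
  rw [← sum_omega, two_stage_omega ρ p2 (fun ω => F (tr ω)), ← sum_omega]
  refine sum_congr rfl fun ω1 _ => ?_
  rw [← sum_omega, mul_sum]
  refine sum_congr rfl fun ω2 _ => ?_
  rw [tr_or]; ring

/-! ### minimal fragments -/

section frag

variable {σ : Type*} [DecidableEq σ]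

/-- candidates for the fragment of `s`. -/
def cand (A : Finset σ) (T : σ → Finset ι) (W : Finset ι) (s : σ) : Finset σ :=
  A.filter fun s' => T s' ⊆ T s ∪ W

open Classical in
/-- a candidate with the smallest part outside `W`. -/
noncomputable def pick (A : Finset σ) (T : σ → Finset ι) (W : Finset ι) (s : σ) : σ :=
  if h : (cand A T W s).Nonempty then
    (exists_min_image (cand A T W s) (fun s' => (T s' \ W).card) h).choose
  else s

/-- the minimal fragment. -/
noncomputable def frag (A : Finset σ) (T : σ → Finset ι) (W : Finset ι) (s : σ) : Finset ι :=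
  T (pick A T W s) \ W

variable {A : Finset σ} {T : σ → Finset ι} {W : Finset ι} {s : σ}

theorem cand_nonempty (hs : s ∈ A) : (cand A T W s).Nonempty :=
  ⟨s, mem_filter.2 ⟨hs, subset_union_left⟩⟩

theorem pick_spec (hs : s ∈ A) : pick A T W s ∈ cand A T W s ∧
    ∀ s' ∈ cand A T W s, (T (pick A T W s) \ W).card ≤ (T s' \ W).card := by
  have h := cand_nonempty (T := T) (W := W) hs
  unfold pick
  rw [dif_pos h]
  exact (exists_min_image (cand A T W s) (fun s' => (T s' \ W).card) h).choose_spec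

theorem pick_mem (hs : s ∈ A) : pick A T W s ∈ A := (mem_filter.1 (pick_spec hs).1).1

theorem pick_subset (hs : s ∈ A) : T (pick A T W s) ⊆ T s ∪ W := (mem_filter.1 (pick_spec hs).1).2

theorem frag_subset (hs : s ∈ A) : frag A T W s ⊆ T s := by
  intro i hi
  obtain ⟨h1, h2⟩ := mem_sdiff.1 hi
  rcases mem_union.1 (pick_subset hs h1) with h | h
  · exact h
  · exact absurd h h2

theorem frag_disjoint : Disjoint W (frag A T W s) := disjoint_sdiff

theorem frag_min (hs : s ∈ A) {s' : σ} (hs' : s' ∈ A) (h : T s' ⊆ T s ∪ W) :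
    (frag A T W s).card ≤ (T s' \ W).card :=
  (pick_spec hs).2 s' (mem_filter.2 ⟨hs', h⟩)

theorem pick_subset_frag : T (pick A T W s) ⊆ W ∪ frag A T W s := by
  intro i hi
  by_cases h : i ∈ W
  · exact mem_union_left _ h
  · exact mem_union_right _ (mem_sdiff.2 ⟨hi, h⟩)

open Classical in
/-- a canonical member of the family inside `Z`. -/
noncomputable def canT (A : Finset σ) (T : σ → Finset ι) (Z : Finset ι) : Finset ι :=
  if h : ∃ s ∈ A, T s ⊆ Z then T h.choose else ∅

theorem card_canT {m : ℕ} (hT : ∀ s ∈ A, (T s).card ≤ m) (Z : Finset ι) :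
    (canT A T Z).card ≤ m := by
  unfold canT
  split_ifs with h
  · exact hT _ h.choose_spec.1
  · simp

/-- the fragment is contained in the canonical member of `W ∪ fragment`. -/
theorem frag_subset_canT (hs : s ∈ A) : frag A T W s ⊆ canT A T (W ∪ frag A T W s) := by
  have h : ∃ s' ∈ A, T s' ⊆ W ∪ frag A T W s := ⟨_, pick_mem hs, pick_subset_frag⟩
  unfold canT
  rw [dif_pos h]
  obtain ⟨h1, h2⟩ := h.choose_spec
  set s0 := h.choose
  have h3 : T s0 ⊆ T s ∪ W := by
    intro i hi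
    rcases mem_union.1 (h2 hi) with h' | h'
    · exact mem_union_right _ h'
    · exact mem_union_left _ (frag_subset hs h')
  have h4 := frag_min hs h1 h3
  have h5 : T s0 \ W ⊆ frag A T W s := by
    intro i hi
    obtain ⟨a, b⟩ := mem_sdiff.1 hi
    rcases mem_union.1 (h2 a) with h' | h'
    · exact absurd h' b
    · exact h'
  have h6 : T s0 \ W = frag A T W s := eq_of_subset_of_card_le h5 h4
  rw [← h6]
  exact sdiff_subset

/-- **one round**: the expected mass of the sets whose minimal fragment is large. -/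
theorem one_round (A : Finset σ) (T : σ → Finset ι) (ν : σ → ℝ) (hν : ∀ s, 0 ≤ ν s)
    (m m' : ℕ) (hT : ∀ s ∈ A, (T s).card ≤ m) (q ρ x : ℝ) (hq : 0 ≤ q) (hρ0 : 0 < ρ) (hρ1 : ρ ≤ 1)
    (hx : q ≤ x * ρ) (hx1 : x ≤ 1)
    (hsp : ∀ R : Finset ι, ∑ s ∈ A.filter (fun s => R ⊆ T s), ν s ≤ q ^ R.card) :
    ∑ W : Finset ι, bw ρ W * ∑ s ∈ A.filter (fun s => m' < (frag A T W s).card), ν s ≤
      2 ^ m * x ^ (m' + 1) := by
  have hx0 : 0 ≤ x := by
    by_contra h
    have : x * ρ < 0 := mul_neg_of_neg_of_pos (not_le.1 h) hρ0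
    linarith
  set Bad : Finset ι → Finset σ := fun W => A.filter (fun s => m' < (frag A T W s).card) with hBad
  set RR : Finset ι → Finset (Finset ι) := fun W => (Bad W).image (frag A T W) with hRR
  -- step 1
  have step1 : ∀ W, ∑ s ∈ Bad W, ν s ≤ ∑ R ∈ RR W, q ^ R.card := by
    intro W
    rw [← sum_fiberwise_of_maps_to (s := Bad W) (t := RR W) (g := frag A T W)
      (fun s hs => mem_image_of_mem _ hs)]
    refine sum_le_sum fun R _ => ?_
    refine le_trans ?_ (hsp R)
    refine sum_le_sum_of_subset_of_nonneg ?_ (fun s _ _ => hν s)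
    intro s hs
    obtain ⟨h1, h2⟩ := mem_filter.1 hs
    have hsA : s ∈ A := (mem_filter.1 h1).1
    refine mem_filter.2 ⟨hsA, ?_⟩
    rw [← h2]
    exact frag_subset hsA
  -- step 2
  have step2 : ∀ W, ∀ R ∈ RR W, bw ρ W * q ^ R.card ≤ bw ρ (W ∪ R) * x ^ (m' + 1) := by
    intro W R hR
    obtain ⟨s, hs, rfl⟩ := mem_image.1 hR
    obtain ⟨_, hcard⟩ := mem_filter.1 hs
    rw [bw_union hρ0.ne' (frag_disjoint (A := A) (T := T) (W := W) (s := s)), mul_assoc, ← mul_pow]
    refine mul_le_mul_of_nonneg_left ?_ (bw_nonneg hρ0.le hρ1 _)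
    have hy0 : 0 ≤ (1 - ρ) / ρ * q := mul_nonneg (div_nonneg (by linarith) hρ0.le) hq
    have hy1 : (1 - ρ) / ρ * q ≤ x := by
      have e1 : (1 - ρ) / ρ * q ≤ (1 - ρ) / ρ * (x * ρ) :=
        mul_le_mul_of_nonneg_left hx (div_nonneg (by linarith) hρ0.le)
      have e2 : (1 - ρ) / ρ * (x * ρ) = (1 - ρ) * x := by field_simp
      have e3 : (1 - ρ) * x ≤ x := by nlinarith
      linarith
    calc ((1 - ρ) / ρ * q) ^ (frag A T W s).card ≤ x ^ (frag A T W s).card :=
          pow_le_pow_left₀ hy0 hy1 _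
      _ ≤ x ^ (m' + 1) := pow_le_pow_of_le_one hx0 hx1 hcard
  -- step 3
  calc ∑ W : Finset ι, bw ρ W * ∑ s ∈ Bad W, ν s
      ≤ ∑ W : Finset ι, ∑ R ∈ RR W, bw ρ (W ∪ R) * x ^ (m' + 1) := by
        refine sum_le_sum fun W _ => ?_
        calc bw ρ W * ∑ s ∈ Bad W, ν s ≤ bw ρ W * ∑ R ∈ RR W, q ^ R.card :=
              mul_le_mul_of_nonneg_left (step1 W) (bw_nonneg hρ0.le hρ1 _)
          _ = ∑ R ∈ RR W, bw ρ W * q ^ R.card := mul_sum _ _ _
          _ ≤ _ := sum_le_sum (step2 W)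
    _ = ∑ z ∈ (univ : Finset (Finset ι)).sigma RR, bw ρ (z.1 ∪ z.2) * x ^ (m' + 1) := by
        rw [sum_sigma']
    _ = ∑ z ∈ ((univ : Finset (Finset ι)).sigma RR).image
          (fun z => (⟨z.1 ∪ z.2, z.2⟩ : Σ _ : Finset ι, Finset ι)), bw ρ z.1 * x ^ (m' + 1) := by
        rw [sum_image]
        intro z hz z' hz' he
        obtain ⟨_, hz2⟩ := mem_sigma.1 hz
        obtain ⟨_, hz2'⟩ := mem_sigma.1 hz'
        obtain ⟨s, _, hs⟩ := mem_image.1 hz2
        obtain ⟨s', _, hs'⟩ := mem_image.1 hz2'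
        have d1 : Disjoint z.1 z.2 := by rw [← hs]; exact frag_disjoint
        have d2 : Disjoint z'.1 z'.2 := by rw [← hs']; exact frag_disjoint
        simp only [Sigma.mk.injEq, heq_eq_eq] at he
        obtain ⟨e1, e2⟩ := he
        have e3 : z.1 = z'.1 := by
          have a1 : (z.1 ∪ z.2) \ z.2 = z.1 := union_sdiff_cancel_right d1
          have a2 : (z'.1 ∪ z'.2) \ z'.2 = z'.1 := union_sdiff_cancel_right d2
          rw [← a1, ← a2, e1, e2]
        exact Sigma.ext e3 (heq_of_eq e2)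
    _ ≤ ∑ z ∈ (univ : Finset (Finset ι)).sigma (fun Z => (canT A T Z).powerset),
          bw ρ z.1 * x ^ (m' + 1) := by
        refine sum_le_sum_of_subset_of_nonneg ?_ (fun z _ _ =>
          mul_nonneg (bw_nonneg hρ0.le hρ1 _) (pow_nonneg hx0 _))
        intro z hz
        obtain ⟨z0, hz0, rfl⟩ := mem_image.1 hz
        obtain ⟨_, hz2⟩ := mem_sigma.1 hz0
        obtain ⟨s, hs, hs'⟩ := mem_image.1 hz2
        refine mem_sigma.2 ⟨mem_univ _, ?_⟩
        rw [mem_powerset]
        simp only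
        rw [← hs']
        exact frag_subset_canT (mem_filter.1 hs).1
    _ = ∑ Z : Finset ι, ∑ _R ∈ (canT A T Z).powerset, bw ρ Z * x ^ (m' + 1) := by
        rw [sum_sigma']
    _ ≤ ∑ Z : Finset ι, bw ρ Z * (2 ^ m * x ^ (m' + 1)) := by
        refine sum_le_sum fun Z _ => ?_
        rw [sum_const, card_powerset, nsmul_eq_mul]
        have h1 : ((2 ^ (canT A T Z).card : ℕ) : ℝ) ≤ 2 ^ m := by
          push_cast
          exact pow_le_pow_right₀ (by norm_num) (card_canT hT Z)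
        have h2 : 0 ≤ bw ρ Z * x ^ (m' + 1) :=
          mul_nonneg (bw_nonneg hρ0.le hρ1 _) (pow_nonneg hx0 _)
        calc ((2 ^ (canT A T Z).card : ℕ) : ℝ) * (bw ρ Z * x ^ (m' + 1))
            ≤ 2 ^ m * (bw ρ Z * x ^ (m' + 1)) := mul_le_mul_of_nonneg_right h1 h2
          _ = _ := by ring
    _ = 2 ^ m * x ^ (m' + 1) := by
        rw [← sum_mul, sum_bw, one_mul]

/-- probability that the random set contains no member of the family. -/
noncomputable def PF (p : ℝ) (A : Finset σ) (T : σ → Finset ι) : ℝ :=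
  ∑ W : Finset ι, bw p W * (if (∀ s ∈ A, ¬ T s ⊆ W) then 1 else 0)

theorem PF_nonneg {p : ℝ} (h0 : 0 ≤ p) (h1 : p ≤ 1) (A : Finset σ) (T : σ → Finset ι) :
    0 ≤ PF p A T :=
  sum_nonneg fun W _ => mul_nonneg (bw_nonneg h0 h1 W) (by split_ifs <;> norm_num)

theorem PF_le_one {p : ℝ} (h0 : 0 ≤ p) (h1 : p ≤ 1) (A : Finset σ) (T : σ → Finset ι) :
    PF p A T ≤ 1 := by
  rw [← sum_bw (ι := ι) p]
  refine sum_le_sum fun W _ => ?_
  have := bw_nonneg h0 h1 W
  split_ifs <;> simp [this]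

theorem num_step (k : ℕ) :
    (1 / 4 : ℝ) * (1 - (1 / 2) ^ k) + 2 ^ (2 ^ (k + 1) - 1) * (1 / 16) ^ (2 ^ k - 1 + 1) ≤
      1 / 4 * (1 - (1 / 2) ^ (k + 1)) := by
  have h1 : 2 ^ k - 1 + 1 = 2 ^ k := Nat.sub_add_cancel Nat.one_le_two_pow
  have h2 : (2:ℝ) ^ (2 ^ (k + 1) - 1) * 2 = 4 ^ (2 ^ k) := by
    rw [← pow_succ, Nat.sub_add_cancel Nat.one_le_two_pow, pow_succ 2 k, mul_comm (2 ^ k) 2,
      pow_mul]
    norm_num
  have h3 : (2:ℝ) ^ (2 ^ (k + 1) - 1) * (1 / 16) ^ (2 ^ k) = 1 / 2 * (1 / 4) ^ (2 ^ k) := by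
    have : (2:ℝ) ^ (2 ^ (k + 1) - 1) = 4 ^ (2 ^ k) / 2 := by rw [← h2]; ring
    rw [this, div_mul_eq_mul_div, ← mul_pow]
    norm_num
    ring
  have h4 : ((1:ℝ) / 4) ^ (2 ^ k) ≤ (1 / 4) ^ (k + 1) :=
    pow_le_pow_of_le_one (by norm_num) (by norm_num) (Nat.lt_two_pow_self)
  have h5 : ((1:ℝ) / 4) ^ k ≤ (1 / 2) ^ k := pow_le_pow_left₀ (by norm_num) (by norm_num) k
  rw [h1, h3, pow_succ (1 / 2 : ℝ) k]
  rw [pow_succ] at h4
  nlinarith

/-- the main induction on the number of rounds. -/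
theorem main_ind (ν : σ → ℝ) (hν : ∀ s, 0 ≤ ν s) (q ρ : ℝ) (hq : 0 ≤ q) (hρ0 : 0 < ρ)
    (hρ1 : ρ < 1) (hqρ : 16 * q ≤ ρ) (k : ℕ) :
    ∀ (A : Finset σ) (T : σ → Finset ι) (p : ℝ), (∀ s ∈ A, (T s).card < 2 ^ k) →
      (∀ R : Finset ι, ∑ s ∈ A.filter (fun s => R ⊆ T s), ν s ≤ q ^ R.card) →
      k * ρ ≤ p → p ≤ 1 → (∑ s ∈ A, ν s) * PF p A T ≤ 1 / 4 * (1 - (1 / 2) ^ k) := by
  induction k with
  | zero =>
    intro A T p hT _ _ _
    rcases A.eq_empty_or_nonempty with rfl | ⟨s, hs⟩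
    · simp
    · have hPF : PF p A T = 0 := by
        unfold PF
        refine sum_eq_zero fun W _ => ?_
        rw [if_neg, mul_zero]
        intro h
        apply h s hs
        have : (T s).card = 0 := by have := hT s hs; simpa using this
        rw [card_eq_zero.1 this]
        exact empty_subset _
      rw [hPF]; simp
  | succ k ih =>
    intro A T p hT hsp hp hp1
    have h1ρ : 0 < 1 - ρ := by linarith
    have hpρ : (k:ℝ) * ρ ≤ p - ρ := by push_cast at hp; linarith
    have hk0 : (0:ℝ) ≤ k * ρ := mul_nonneg (Nat.cast_nonneg k) hρ0.le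
    set p2 : ℝ := (p - ρ) / (1 - ρ) with hp2
    have hp2le : p2 ≤ 1 := by rw [hp2, div_le_one h1ρ]; linarith
    have hp2ge : (k:ℝ) * ρ ≤ p2 := by
      rw [hp2, le_div_iff₀ h1ρ]
      nlinarith
    have hp20 : 0 ≤ p2 := le_trans hk0 hp2ge
    have hpeq : p = 1 - (1 - ρ) * (1 - p2) := by
      rw [hp2]; field_simp; ring
    set A1 : Finset ι → Finset σ := fun W => A.filter (fun s => ¬ (2 ^ k - 1 < (frag A T W s).card))
      with hA1
    set Bad : Finset ι → Finset σ := fun W => A.filter (fun s => 2 ^ k - 1 < (frag A T W s).card)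
      with hBad
    have hsplit : ∀ W, ∑ s ∈ A, ν s = ∑ s ∈ Bad W, ν s + ∑ s ∈ A1 W, ν s := fun W =>
      (sum_filter_add_sum_filter_not A _ _).symm
    have hνA : 0 ≤ ∑ s ∈ A, ν s := sum_nonneg fun s _ => hν s
    -- failure is inherited
    have hfail : ∀ W1 W2 : Finset ι, (∀ s ∈ A, ¬ T s ⊆ W1 ∪ W2) →
        ∀ s ∈ A1 W1, ¬ frag A T W1 s ⊆ W2 := by
      intro W1 W2 h s hs hsub
      have hsA : s ∈ A := (mem_filter.1 hs).1
      refine h _ (pick_mem (T := T) (W := W1) hsA) ?_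
      exact (pick_subset_frag).trans (union_subset_union_right hsub)
    have hPFle : PF p A T ≤ ∑ W1 : Finset ι, bw ρ W1 * PF p2 (A1 W1) (frag A T W1) := by
      unfold PF
      rw [hpeq, two_stage]
      refine sum_le_sum fun W1 _ => mul_le_mul_of_nonneg_left ?_ (bw_nonneg hρ0.le hρ1.le _)
      refine sum_le_sum fun W2 _ => mul_le_mul_of_nonneg_left ?_ (bw_nonneg hp20 hp2le _)
      by_cases h : ∀ s ∈ A, ¬ T s ⊆ W1 ∪ W2
      · rw [if_pos h, if_pos (hfail W1 W2 h)]
      · rw [if_neg h]; split_ifs <;> norm_num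
    -- induction hypothesis for the fragments
    have hih : ∀ W1 : Finset ι, (∑ s ∈ A1 W1, ν s) * PF p2 (A1 W1) (frag A T W1) ≤
        1 / 4 * (1 - (1 / 2) ^ k) := by
      intro W1
      refine ih (A1 W1) (frag A T W1) p2 ?_ ?_ hp2ge hp2le
      · intro s hs
        have := (mem_filter.1 hs).2
        have h2 : 0 < 2 ^ k := Nat.two_pow_pos k
        omega
      · intro R
        refine le_trans ?_ (hsp R)
        refine sum_le_sum_of_subset_of_nonneg ?_ (fun s _ _ => hν s)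
        intro s hs
        obtain ⟨h1, h2⟩ := mem_filter.1 hs
        have hsA : s ∈ A := (mem_filter.1 h1).1
        exact mem_filter.2 ⟨hsA, h2.trans (frag_subset hsA)⟩
    have hone := one_round A T ν hν (2 ^ (k + 1) - 1) (2 ^ k - 1)
      (fun s hs => by have := hT s hs; omega) q ρ (1 / 16) hq hρ0 hρ1.le (by linarith)
      (by norm_num) hsp
    calc (∑ s ∈ A, ν s) * PF p A T
        ≤ (∑ s ∈ A, ν s) * ∑ W1 : Finset ι, bw ρ W1 * PF p2 (A1 W1) (frag A T W1) :=
          mul_le_mul_of_nonneg_left hPFle hνA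
      _ = ∑ W1 : Finset ι, bw ρ W1 * ((∑ s ∈ A, ν s) * PF p2 (A1 W1) (frag A T W1)) := by
          rw [mul_sum]; exact sum_congr rfl fun W1 _ => by ring
      _ ≤ ∑ W1 : Finset ι, bw ρ W1 * (1 / 4 * (1 - (1 / 2) ^ k) + ∑ s ∈ Bad W1, ν s) := by
          refine sum_le_sum fun W1 _ => mul_le_mul_of_nonneg_left ?_ (bw_nonneg hρ0.le hρ1.le _)
          rw [hsplit W1, add_mul]
          have hb : 0 ≤ ∑ s ∈ Bad W1, ν s := sum_nonneg fun s _ => hν s
          have h1 := PF_le_one hp20 hp2le (A1 W1) (frag A T W1)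
          have h2 := hih W1
          nlinarith
      _ = 1 / 4 * (1 - (1 / 2) ^ k) + ∑ W1 : Finset ι, bw ρ W1 * ∑ s ∈ Bad W1, ν s := by
          simp only [mul_add]
          rw [sum_add_distrib, ← sum_mul, sum_bw, one_mul]
      _ ≤ 1 / 4 * (1 - (1 / 2) ^ k) + 2 ^ (2 ^ (k + 1) - 1) * (1 / 16) ^ (2 ^ k - 1 + 1) := by
          linarith [hone]
      _ ≤ _ := num_step k

end frag

/-- the probability of the up-set generated by the `S s` is `1 - PF`. -/
theorem prob_eq {σ : Type*} [Fintype σ] [DecidableEq σ] (S : σ → Finset ι) (P : ℝ) :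
    Crest.FinProb.bernoulliProb P {ω : ι → Bool | ∃ s, ∀ i ∈ S s, ω i = true} =
      1 - PF P univ S := by
  classical
  have h1 : Crest.FinProb.bernoulliProb P {ω : ι → Bool | ∃ s, ∀ i ∈ S s, ω i = true} =
      ∑ ω : ι → Bool, Crest.FinProb.bernoulliWeight P ω *
        (fun W : Finset ι => if (∀ s ∈ (univ : Finset σ), ¬ S s ⊆ W) then (0:ℝ) else 1) (tr ω) := by
    unfold Crest.FinProb.bernoulliProb
    rw [sum_filter]
    refine sum_congr rfl fun ω _ => ?_
    have hiff : (ω ∈ {ω : ι → Bool | ∃ s, ∀ i ∈ S s, ω i = true}) ↔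
        ¬ (∀ s ∈ (univ : Finset σ), ¬ S s ⊆ tr ω) := by
      simp only [Set.mem_ofPred_eq, mem_univ, true_imp_iff, not_forall, not_not]
      refine exists_congr fun s => ?_
      constructor
      · intro h i hi; exact mem_tr.2 (h i hi)
      · intro h i hi; exact mem_tr.1 (h hi)
    by_cases h : ω ∈ {ω : ι → Bool | ∃ s, ∀ i ∈ S s, ω i = true}
    · rw [if_pos h]
      simp only
      rw [if_neg (hiff.1 h), mul_one]
    · rw [if_neg h]
      simp only
      rw [if_pos (not_not.1 (fun h' => h (hiff.2 h'))), mul_zero]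
  have h2 := sum_omega P
    (fun W : Finset ι => if (∀ s ∈ (univ : Finset σ), ¬ S s ⊆ W) then (0:ℝ) else 1)
  rw [h1, h2]
  unfold PF
  rw [eq_sub_iff_add_eq, ← sum_add_distrib]
  refine Eq.trans ?_ (sum_bw (ι := ι) P)
  refine sum_congr rfl fun W _ => ?_
  split_ifs <;> ring

theorem PF_one {σ : Type*} [Fintype σ] [DecidableEq σ] [Nonempty σ] (S : σ → Finset ι) :
    PF 1 univ S = 0 := by
  unfold PF
  refine sum_eq_zero fun W _ => ?_
  by_cases hW : W = univ
  · subst hW
    rw [if_neg, mul_zero]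
    intro h
    exact h (Classical.arbitrary σ) (mem_univ _) (subset_univ _)
  · have : (Wᶜ).card ≠ 0 := by
      rw [Ne, card_eq_zero, compl_eq_empty_iff]
      exact hW
    rw [bw, sub_self, zero_pow this, mul_zero, zero_mul]

/-- **The spread lemma** (Frankston–Kahn–Narayanan–Park, via the Park–Pham argument), in product
measure form. -/
theorem spread_lemma {ι σ : Type*} [Fintype ι] [DecidableEq ι] [Fintype σ] (S : σ → Finset ι)
    (ν : σ → ℝ) (hν0 : ∀ s, 0 ≤ ν s) (hν1 : ∑ s, ν s = 1) (ℓ : ℕ) (hℓ : 1 ≤ ℓ)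
    (hS : ∀ s, (S s).card ≤ ℓ) (q : ℝ) (hq : 0 < q)
    (hsp : ∀ T : Finset ι, ∑ s ∈ Finset.univ.filter (fun s => T ⊆ S s), ν s ≤ q ^ T.card) :
    (1:ℝ)/2 ≤ Crest.FinProb.bernoulliProb (min 1 (16 * q * (1 + Real.logb 2 ℓ)))
      {ω : ι → Bool | ∃ s, ∀ i ∈ S s, ω i = true} := by
  classical
  have hne : Nonempty σ := by
    by_contra h
    rw [not_nonempty_iff] at h
    simp at hν1
  rw [prob_eq]
  have hlog : 0 ≤ Real.logb 2 (ℓ:ℝ) := Real.logb_nonneg (by norm_num) (by exact_mod_cast hℓ)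
  rcases le_total 1 (16 * q * (1 + Real.logb 2 ℓ)) with h | h
  · rw [min_eq_left h, PF_one]; norm_num
  · rw [min_eq_right h]
    have hρ0 : 0 < 16 * q := by positivity
    rcases eq_or_lt_of_le (show 16 * q ≤ 1 by nlinarith) with hρ1 | hρ1
    · -- then the density is exactly one
      have : 16 * q * (1 + Real.logb 2 ℓ) = 1 := by
        apply le_antisymm h
        rw [hρ1]; linarith
      rw [this, PF_one]; norm_num
    · have hk : (ℓ:ℕ) < 2 ^ (Nat.log 2 ℓ + 1) := Nat.lt_pow_succ_log_self (by norm_num) ℓ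
      have hkl : ((Nat.log 2 ℓ : ℕ) : ℝ) ≤ Real.logb 2 (ℓ:ℝ) := by
        have := Real.natLog_le_logb ℓ 2
        simpa using this
      have := main_ind ν hν0 q (16 * q) hq.le hρ0 hρ1 le_rfl (Nat.log 2 ℓ + 1) univ S
        (16 * q * (1 + Real.logb 2 ℓ)) (fun s _ => lt_of_le_of_lt (hS s) hk) hsp
        (by
          push_cast
          nlinarith) h
      rw [hν1, one_mul] at this
      have h2 : (0:ℝ) ≤ (1 / 2) ^ (Nat.log 2 ℓ + 1) := by positivity
      linarith

end Crest.Agent.R76.SP
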