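import Mathlib
import Crest.Agent.R76.Spread
import Crest.Agent.R76.Assemble

/-!
S0076 from `KeyLemma C` alone: `SP.spread_lemma` discharges the hypothesis `SpreadLemma` of
`S0076_of`.
-/

set_option autoImplicit false

namespace Crest.Agent.R76

theorem spreadLemma : SpreadLemma := by
  intro ι σ _ _ _ S ν h0 h1 ℓ hℓ hS q hq hsp
  exact SP.spread_lemma S ν h0 h1 ℓ hℓ hS q hq hsp

/-- S0076 follows from the pure counting statement `KeyLemma C`, for any `0 < C ≤ 128 e^50`. -/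
theorem S0076_of_key (C : ℝ) (hC0 : 0 < C) (hC : C ≤ 128 * Real.exp 50) (hK : KeyLemma C)
    (n : ℕ) (hn : 2 ≤ n) (W : Type) [Fintype W] [DecidableEq W] (H : SimpleGraph W)
    [DecidableRel H.Adj] (hW : Fintype.card W ≤ n) (hH : 1 ≤ H.edgeFinset.card)
    (p : ℝ) (hp0 : 0 ≤ p) (hp1 : p ≤ 1)
    (hE : ∀ F : H.Subgraph, (1 : ℝ) / 2 ≤
      Crest.CombinatoricsR.RandomGraph.gnpExpect n p (fun G => (G.copyCount F.coe : ℝ))) :
    (1 : ℝ) / 2 ≤ Crest.CombinatoricsR.RandomGraph.gnpProb n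
      (min 1 (2048 * Real.exp 50 * p * (1 + Real.logb 2 (H.edgeFinset.card : ℝ))))
      {G | H.IsContained G} :=
  S0076_of spreadLemma C hC0 hC hK n hn W H hW hH p hp0 hp1 hE

end Crest.Agent.R76
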