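import Mathlib
import Crest.Agent.R76.Defs

/-!
# S0076, task T5 (part A): the copies of `F` in `K_n` lying inside a fixed copy `φ(E)` are
at most `subCount E F`.
-/

set_option autoImplicit false

namespace Crest.Agent.R76.OrbitA

open Finset Crest.CombinatoricsR.RandomGraph

variable {n : ℕ} {W : Type} [Fintype W] [DecidableEq W]

/-- a partial injection of a finite type extends to a permutation -/
lemma exists_perm_extend {α : Type*} [Fintype α] [DecidableEq α] (p : α → Prop)
    (f : {x // p x} → α) (hf : Function.Injective f) :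
    ∃ σ : Equiv.Perm α, ∀ x (hx : p x), σ x = f ⟨x, hx⟩ := by
  classical
  let e : {x // p x} ≃ {y // y ∈ Set.range f} := Equiv.ofInjective f hf
  refine ⟨e.extendSubtype, fun x hx => ?_⟩
  rw [Equiv.extendSubtype_apply_of_mem _ _ hx]
  rfl

/-- pull back along `φ` -/
def pull (E : Finset (Sym2 W)) (φ : W ↪ Fin n) (U : Finset (Sym2 (Fin n))) : Finset (Sym2 W) :=
  E.filter (fun e => Sym2.map φ e ∈ U)

lemma img_pull (E : Finset (Sym2 W)) (φ : W ↪ Fin n) (U : Finset (Sym2 (Fin n)))
    (hU : U ⊆ img φ E) : img φ (pull E φ U) = U := by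
  ext z
  simp only [img, pull, Finset.mem_image, Finset.mem_filter]
  constructor
  · rintro ⟨e, ⟨_, h2⟩, rfl⟩
    exact h2
  · intro hz
    have := hU hz
    simp only [img, Finset.mem_image] at this
    obtain ⟨e, he, rfl⟩ := this
    exact ⟨e, ⟨he, hz⟩, rfl⟩

lemma exists_perm_of_img (φ ψ : W ↪ Fin n) :
    ∃ σ : Equiv.Perm W, ∀ e e' : Sym2 W, Sym2.map ψ e = Sym2.map φ e' → Sym2.map σ e = e' := by
  classical
  let p : W → Prop := fun x => ψ x ∈ Set.range φ
  let f : {x // p x} → W := fun x => Classical.choose x.2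
  have hfs : ∀ x : {x // p x}, φ (f x) = ψ x.1 := fun x => Classical.choose_spec x.2
  have hf : Function.Injective f := by
    intro x y hxy
    apply Subtype.ext
    apply ψ.injective
    rw [← hfs x, ← hfs y, hxy]
  obtain ⟨σ, hσ⟩ := exists_perm_extend p f hf
  refine ⟨σ, ?_⟩
  intro e e' h
  have hinj : Function.Injective (Sym2.map φ) := Sym2.map.injective φ.injective
  apply hinj
  rw [← h]
  induction e using Sym2.ind with
  | _ a b =>
    induction e' using Sym2.ind with
    | _ c d =>
      simp only [Sym2.map_pair_eq] at h ⊢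
      have ha : p a := by
        rcases Sym2.eq_iff.mp h with ⟨h1, _⟩ | ⟨h1, _⟩
        · exact ⟨c, h1.symm⟩
        · exact ⟨d, h1.symm⟩
      have hb : p b := by
        rcases Sym2.eq_iff.mp h with ⟨_, h1⟩ | ⟨_, h1⟩
        · exact ⟨d, h1.symm⟩
        · exact ⟨c, h1.symm⟩
      have h1 : φ (σ a) = ψ a := by rw [hσ a ha]; exact hfs ⟨a, ha⟩
      have h2 : φ (σ b) = ψ b := by rw [hσ b hb]; exact hfs ⟨b, hb⟩
      rw [h1, h2]

theorem count_le (E F : Finset (Sym2 W)) (φ : W ↪ Fin n) :
    ((copies n F).filter (fun U' => U' ⊆ img φ E)).card ≤ subCount E F := by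
  classical
  unfold subCount
  apply Finset.card_le_card_of_injOn (pull E φ)
  · intro U' hU'
    simp only [Finset.coe_filter, Set.mem_setOf_eq, copies, Finset.mem_image, Finset.mem_univ,
      true_and] at hU'
    obtain ⟨⟨ψ, rfl⟩, hsub⟩ := hU'
    simp only [Finset.coe_filter, Set.mem_setOf_eq, Finset.mem_powerset]
    refine ⟨Finset.filter_subset _ _, ?_⟩
    obtain ⟨σ, hσ⟩ := exists_perm_of_img φ ψ
    refine ⟨σ, ?_⟩
    ext e'
    simp only [img, pull, Finset.mem_image, Finset.mem_filter]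
    constructor
    · rintro ⟨e, he, rfl⟩
      have h1 : Sym2.map ψ e ∈ img ψ F := Finset.mem_image_of_mem _ he
      have h2 := hsub h1
      simp only [img, Finset.mem_image] at h2
      obtain ⟨e'', he'', h3⟩ := h2
      have h4 := hσ e e'' h3.symm
      rw [h4]
      exact ⟨he'', ⟨e, he, h3.symm⟩⟩
    · rintro ⟨_, ⟨e, he, h3⟩⟩
      exact ⟨e, he, hσ e e' h3⟩
  · intro U1 h1 U2 h2 h
    simp only [Finset.coe_filter, Set.mem_setOf_eq] at h1 h2
    rw [← img_pull E φ U1 h1.2, ← img_pull E φ U2 h2.2, h]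

end Crest.Agent.R76.OrbitA
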