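import Mathlib
import Crest.Agent.R76.Defs
import Crest.Agent.R76.OrbitA

/-!
# S0076, task T5: labelled spread from unlabelled spread (owner helper20)
-/

set_option autoImplicit false

namespace Crest.Agent.R76.Orbit

open Finset Crest.CombinatoricsR.RandomGraph

variable {n : ℕ} {W : Type} [Fintype W] [DecidableEq W]

/-- number of embeddings whose copy of `E` contains `U` -/
noncomputable def cnt (E : Finset (Sym2 W)) (U : Finset (Sym2 (Fin n))) : ℕ :=
  (Finset.univ.filter (fun φ : W ↪ Fin n => U ⊆ img φ E)).card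

lemma img_img {V V' V'' : Type} [DecidableEq V'] [DecidableEq V''] (f : V → V') (g : V' → V'')
    (F : Finset (Sym2 V)) : img g (img f F) = img (g ∘ f) F := by
  unfold img
  rw [Finset.image_image, Sym2.map_comp]

lemma img_subset_img_iff {V V' : Type} [DecidableEq V'] (f : V → V') (hf : Function.Injective f)
    (A B : Finset (Sym2 V)) : img f A ⊆ img f B ↔ A ⊆ B := by
  unfold img
  exact Finset.image_subset_image_iff (Sym2.map.injective hf)

lemma card_img {V V' : Type} [DecidableEq V'] (f : V → V') (hf : Function.Injective f)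
    (A : Finset (Sym2 V)) : (img f A).card = A.card := by
  unfold img
  exact Finset.card_image_of_injective _ (Sym2.map.injective hf)

omit [DecidableEq W] in
/-- the count is invariant under permutations of `Fin n` -/
lemma cnt_img_perm (E : Finset (Sym2 W)) (U : Finset (Sym2 (Fin n))) (π : Equiv.Perm (Fin n)) :
    cnt E (img π U) = cnt E U := by
  unfold cnt
  symm
  refine Finset.card_equiv (Equiv.embeddingCongr (Equiv.refl W) π) ?_
  intro φ
  simp only [Finset.mem_filter, Finset.mem_univ, true_and]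
  have h : img (⇑((Equiv.embeddingCongr (Equiv.refl W) π) φ)) E = img π (img φ E) := by
    rw [img_img]
    congr 1
  rw [h, img_subset_img_iff _ π.injective]

/-- T5, with the two auxiliary facts as hypotheses -/
theorem spread_of_spreadU_aux
    (hperm : ∀ φ ψ : W ↪ Fin n, ∃ π : Equiv.Perm (Fin n), ∀ x, π (φ x) = ψ x)
    (hcount : ∀ (E F : Finset (Sym2 W)) (φ : W ↪ Fin n),
      ((copies n F).filter (fun U' => U' ⊆ img φ E)).card ≤ subCount E F)
    (E : Finset (Sym2 W)) (r : ℝ) (hr : 0 ≤ r) (hs : SpreadU n E r) : Spread n E r := by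
  intro U
  change ((cnt E U : ℕ) : ℝ) ≤ _
  by_cases hex : ∃ φ0 : W ↪ Fin n, U ⊆ img φ0 E
  swap
  · have h0 : cnt E U = 0 := by
      unfold cnt
      rw [Finset.card_eq_zero, Finset.filter_eq_empty_iff]
      intro φ _ hφ
      exact hex ⟨φ, hφ⟩
    rw [h0]
    simp only [Nat.cast_zero]
    positivity
  obtain ⟨φ0, hφ0⟩ := hex
  -- the preimage of `U`
  set F : Finset (Sym2 W) := E.filter (fun e => Sym2.map φ0 e ∈ U) with hF
  have hFE : F ⊆ E := Finset.filter_subset _ _
  have hFU : img φ0 F = U := by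
    ext u
    unfold img
    simp only [hF, Finset.mem_image, Finset.mem_filter]
    constructor
    · rintro ⟨e, ⟨_, he⟩, rfl⟩
      exact he
    · intro hu
      have := hφ0 hu
      unfold img at this
      obtain ⟨e, he, rfl⟩ := Finset.mem_image.1 this
      exact ⟨e, ⟨he, hu⟩, rfl⟩
  have hcard : F.card = U.card := by
    rw [← hFU, card_img _ φ0.injective]
  -- every copy has the same count
  have hsame : ∀ U' ∈ copies n F, cnt E U' = cnt E U := by
    intro U' hU'
    unfold copies at hU'
    obtain ⟨ψ, _, rfl⟩ := Finset.mem_image.1 hU'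
    obtain ⟨π, hπ⟩ := hperm φ0 ψ
    have : img ψ F = img π U := by
      rw [← hFU, img_img]
      congr 1
      funext x
      exact (hπ x).symm
    rw [this, cnt_img_perm]
  -- double counting
  have hdc : ∑ U' ∈ copies n F, cnt E U'
      = ∑ φ : W ↪ Fin n, ((copies n F).filter (fun U' => U' ⊆ img φ E)).card := by
    unfold cnt
    simp only [Finset.card_filter]
    rw [Finset.sum_comm]
  have h1 : (kappa n F) * cnt E U = ∑ U' ∈ copies n F, cnt E U' := by
    rw [Finset.sum_congr rfl hsame, Finset.sum_const, smul_eq_mul]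
    rfl
  have h2 : ∑ φ : W ↪ Fin n, ((copies n F).filter (fun U' => U' ⊆ img φ E)).card
      ≤ Fintype.card (W ↪ Fin n) * subCount E F := by
    calc _ ≤ ∑ _φ : W ↪ Fin n, subCount E F := Finset.sum_le_sum (fun φ _ => hcount E F φ)
      _ = _ := by rw [Finset.sum_const, smul_eq_mul]; rfl
  have h3 : (kappa n F) * cnt E U ≤ Fintype.card (W ↪ Fin n) * subCount E F := by
    rw [h1, hdc]; exact h2
  have hk : 0 < kappa n F := by
    unfold kappa
    rw [Finset.card_pos]
    exact ⟨U, by unfold copies; exact Finset.mem_image.2 ⟨φ0, Finset.mem_univ _, hFU⟩⟩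
  have h4 : (subCount E F : ℝ) ≤ r ^ F.card * (kappa n F : ℝ) := hs F hFE
  have h3' : (kappa n F : ℝ) * (cnt E U : ℝ)
      ≤ (Fintype.card (W ↪ Fin n) : ℝ) * (subCount E F : ℝ) := by exact_mod_cast h3
  have hk' : (0 : ℝ) < (kappa n F : ℝ) := by exact_mod_cast hk
  have h5 : (kappa n F : ℝ) * (cnt E U : ℝ)
      ≤ (kappa n F : ℝ) * (r ^ U.card * (Fintype.card (W ↪ Fin n) : ℝ)) := by
    calc (kappa n F : ℝ) * (cnt E U : ℝ)
        ≤ (Fintype.card (W ↪ Fin n) : ℝ) * (subCount E F : ℝ) := h3'
      _ ≤ (Fintype.card (W ↪ Fin n) : ℝ) * (r ^ F.card * (kappa n F : ℝ)) :=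
          mul_le_mul_of_nonneg_left h4 (by positivity)
      _ = _ := by rw [hcard]; ring
  exact le_of_mul_le_mul_left h5 hk'

omit [Fintype W] [DecidableEq W] in
/-- `Perm (Fin n)` is transitive on embeddings -/
lemma exists_perm (φ ψ : W ↪ Fin n) : ∃ π : Equiv.Perm (Fin n), ∀ x, π (φ x) = ψ x := by
  classical
  let p : Fin n → Prop := fun y => y ∈ Set.range φ
  let f : {y // p y} → Fin n := fun y => ψ (Classical.choose y.2)
  have hfs : ∀ y : {y // p y}, φ (Classical.choose y.2) = y.1 := fun y => Classical.choose_spec y.2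
  have hf : Function.Injective f := by
    intro y z hyz
    apply Subtype.ext
    rw [← hfs y, ← hfs z, ψ.injective hyz]
  obtain ⟨π, hπ⟩ := OrbitA.exists_perm_extend p f hf
  refine ⟨π, fun x => ?_⟩
  rw [hπ (φ x) ⟨x, rfl⟩]
  change ψ _ = ψ x
  congr 1
  exact φ.injective (hfs ⟨φ x, ⟨x, rfl⟩⟩)

/-- **T5**: the unlabelled form of the key lemma implies that the uniform random copy is spread. -/
theorem spread_of_spreadU (_hW : Fintype.card W ≤ n) (E : Finset (Sym2 W))
    (_hE : ∀ e ∈ E, ¬ e.IsDiag) (r : ℝ) (hr : 0 ≤ r) (hs : SpreadU n E r) : Spread n E r :=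
  spread_of_spreadU_aux exists_perm OrbitA.count_le E r hr hs

end Crest.Agent.R76.Orbit
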