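import Mathlib
import Crest.Agent.R76.OfKey
import Crest.Agent.R76.Orbit

/-!
S0076 from the *unlabelled* form of the key lemma (`ExpHyp → SpreadU`), task T9.
-/

set_option autoImplicit false

namespace Crest.Agent.R76

/-- the unlabelled key lemma with constant `C` -/
def KeyLemmaU (C : ℝ) : Prop :=
  ∀ (n : ℕ) (_ : 2 ≤ n) (W : Type) [Fintype W] [DecidableEq W] (H : SimpleGraph W)
    [DecidableRel H.Adj] (_ : Fintype.card W ≤ n) (_ : 1 ≤ H.edgeFinset.card)
    (p : ℝ) (_ : 0 < p) (_ : p ≤ 1),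
    ExpHyp n H.edgeFinset p → SpreadU n H.edgeFinset (C * p)

theorem keyLemma_of_keyLemmaU (C : ℝ) (hC0 : 0 < C) (hK : KeyLemmaU C) : KeyLemma C := by
  intro n hn W _ _ H _ hW hH p hp0 hp1 hE U
  have hexp : ExpHyp n H.edgeFinset p := fun F hF => hE F hF
  have hs : SpreadU n H.edgeFinset (C * p) := hK n hn W H hW hH p hp0 hp1 hexp
  have hdiag : ∀ e ∈ H.edgeFinset, ¬ e.IsDiag := by
    intro e he
    exact H.not_isDiag_of_mem_edgeSet (SimpleGraph.mem_edgeFinset.mp he)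
  exact Orbit.spread_of_spreadU hW H.edgeFinset hdiag (C * p) (by positivity) hs U

/-- S0076 follows from the unlabelled counting statement, for any `0 < C ≤ 128 e^50`. -/
theorem S0076_of_spreadU (C : ℝ) (hC0 : 0 < C) (hC : C ≤ 128 * Real.exp 50) (hK : KeyLemmaU C)
    (n : ℕ) (hn : 2 ≤ n) (W : Type) [Fintype W] [DecidableEq W] (H : SimpleGraph W)
    [DecidableRel H.Adj] (hW : Fintype.card W ≤ n) (hH : 1 ≤ H.edgeFinset.card)
    (p : ℝ) (hp0 : 0 ≤ p) (hp1 : p ≤ 1)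
    (hE : ∀ F : H.Subgraph, (1 : ℝ) / 2 ≤
      Crest.CombinatoricsR.RandomGraph.gnpExpect n p (fun G => (G.copyCount F.coe : ℝ))) :
    (1 : ℝ) / 2 ≤ Crest.CombinatoricsR.RandomGraph.gnpProb n
      (min 1 (2048 * Real.exp 50 * p * (1 + Real.logb 2 (H.edgeFinset.card : ℝ))))
      {G | H.IsContained G} :=
  S0076_of_key C hC0 hC (keyLemma_of_keyLemmaU C hC0 hK) n hn W H hW hH p hp0 hp1 hE

end Crest.Agent.R76
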