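import Mathlib
import Crest.Agent.R76.Defs
import Crest.Agent.R76.GlueExp

/-! T3: the hypothesis of S0076 in counting form (from `GlueExp.half_le_kappa`). -/

set_option autoImplicit false

namespace Crest.Agent.R76

open Crest.CombinatoricsR.RandomGraph

variable {n : ℕ} {W : Type} [Fintype W] [DecidableEq W]

theorem G2.expHyp (hW : Fintype.card W ≤ n) (H : SimpleGraph W) [DecidableRel H.Adj]
    (p : ℝ) (hp0 : 0 ≤ p) (hp1 : p ≤ 1)
    (hE : ∀ F : H.Subgraph, (1 : ℝ) / 2 ≤ gnpExpect n p (fun G => (G.copyCount F.coe : ℝ))) :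
    ExpHyp n H.edgeFinset p := by
  intro F hF
  exact half_le_kappa n H hW p hp0 hp1 hE F hF

end Crest.Agent.R76
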