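import Mathlib
import Crest.Agent.R76.Defs

/-!
# S0076 counting toolkit K2: union encoding (helper22)

If `F = ⋃ i ∈ s, Fs i` and every `Fs i` is a copy (under a permutation of `W`) of `F0`, then a copy
of `F` in `K_n` is determined by the family of the corresponding copies of `F0`:
* `kappa_biUnion_le_pow`    : `kappa n F ≤ (kappa n F0) ^ s.card`;
* `kappa_biUnion_le_choose` : `kappa n F ≤ (kappa n F0).choose s.card` if the `Fs i` are distinct;
* `kappa_biUnion_le_prod`   : general product form `kappa n (⋃ Fs i) ≤ ∏ kappa n (Fs i)`.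
-/

set_option autoImplicit false

namespace Crest.Agent.R76.KitUnion

open Finset

variable {n : ℕ} {W : Type} [Fintype W] [DecidableEq W]

theorem img_img {V V' V'' : Type} [DecidableEq V'] [DecidableEq V'']
    (f : V → V') (g : V' → V'') (F : Finset (Sym2 V)) : img g (img f F) = img (g ∘ f) F := by
  unfold img
  rw [Finset.image_image, Sym2.map_comp]

theorem img_biUnion {ι V V' : Type} [DecidableEq V] [DecidableEq V'] (f : V → V') (s : Finset ι)
    (Fs : ι → Finset (Sym2 V)) : img f (s.biUnion Fs) = s.biUnion (fun i => img f (Fs i)) := by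
  unfold img
  rw [Finset.biUnion_image]

theorem img_injective {V V' : Type} [DecidableEq V'] (f : V → V')
    (hf : Function.Injective f) : Function.Injective (img f) := by
  unfold img
  exact Finset.image_injective (Sym2.map.injective hf)

theorem img_mem_copies (φ : W ↪ Fin n) (F : Finset (Sym2 W)) : img φ F ∈ copies n F :=
  Finset.mem_image.2 ⟨φ, Finset.mem_univ _, rfl⟩

/-- a copy of a permuted set is a copy of the set -/
theorem img_perm_mem_copies (φ : W ↪ Fin n) (σ : Equiv.Perm W) (F0 : Finset (Sym2 W)) :
    img φ (img σ F0) ∈ copies n F0 := by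
  rw [img_img]
  exact Finset.mem_image.2 ⟨σ.toEmbedding.trans φ, Finset.mem_univ _, rfl⟩

theorem copies_perm (σ : Equiv.Perm W) (F0 : Finset (Sym2 W)) :
    copies n (img σ F0) = copies n F0 := by
  apply Finset.Subset.antisymm
  · intro U hU
    obtain ⟨φ, -, rfl⟩ := Finset.mem_image.1 hU
    exact img_perm_mem_copies φ σ F0
  · intro U hU
    obtain ⟨φ, -, rfl⟩ := Finset.mem_image.1 hU
    refine Finset.mem_image.2 ⟨σ.symm.toEmbedding.trans φ, Finset.mem_univ _, ?_⟩
    show img (σ.symm.toEmbedding.trans φ) (img σ F0) = img φ F0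
    rw [img_img]
    congr 1
    funext x
    simp

theorem kappa_perm (σ : Equiv.Perm W) (F0 : Finset (Sym2 W)) :
    kappa n (img σ F0) = kappa n F0 := by
  unfold kappa
  rw [copies_perm]

/-- general product form of the union encoding -/
theorem kappa_biUnion_le_prod {ι : Type} [DecidableEq ι] (s : Finset ι)
    (Fs : ι → Finset (Sym2 W)) : kappa n (s.biUnion Fs) ≤ ∏ i ∈ s, kappa n (Fs i) := by
  classical
  have hsub : copies n (s.biUnion Fs) ⊆
      (s.pi (fun i => copies n (Fs i))).image
        (fun g => s.attach.biUnion (fun i => g i.1 i.2)) := by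
    intro U hU
    obtain ⟨φ, -, rfl⟩ := Finset.mem_image.1 hU
    refine Finset.mem_image.2 ⟨fun i _ => img φ (Fs i), ?_, ?_⟩
    · rw [Finset.mem_pi]
      intro i _
      exact img_mem_copies φ (Fs i)
    · show s.attach.biUnion (fun i => img φ (Fs i.1)) = img φ (s.biUnion Fs)
      rw [img_biUnion]
      ext e
      simp only [Finset.mem_biUnion, Finset.mem_attach, true_and, Subtype.exists]
      constructor
      · rintro ⟨i, hi, he⟩
        exact ⟨i, hi, he⟩
      · rintro ⟨i, hi, he⟩
        exact ⟨i, hi, he⟩
  calc kappa n (s.biUnion Fs) = (copies n (s.biUnion Fs)).card := rfl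
    _ ≤ ((s.pi (fun i => copies n (Fs i))).image
        (fun g => s.attach.biUnion (fun i => g i.1 i.2))).card := Finset.card_le_card hsub
    _ ≤ (s.pi (fun i => copies n (Fs i))).card := Finset.card_image_le
    _ = ∏ i ∈ s, kappa n (Fs i) := by rw [Finset.card_pi]; rfl

/-- K2, weak form -/
theorem kappa_biUnion_le_pow {ι : Type} [DecidableEq ι] (s : Finset ι)
    (Fs : ι → Finset (Sym2 W)) (F0 : Finset (Sym2 W))
    (hF : ∀ i ∈ s, ∃ σ : Equiv.Perm W, img σ F0 = Fs i) :
    kappa n (s.biUnion Fs) ≤ (kappa n F0) ^ s.card := by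
  refine (kappa_biUnion_le_prod s Fs).trans (le_of_eq ?_)
  rw [← Finset.prod_const]
  refine Finset.prod_congr rfl (fun i hi => ?_)
  obtain ⟨σ, hσ⟩ := hF i hi
  rw [← hσ, kappa_perm]

/-- K2, `choose` form: the `Fs i` are pairwise distinct copies of `F0`. -/
theorem kappa_biUnion_le_choose {ι : Type} [DecidableEq ι] (s : Finset ι)
    (Fs : ι → Finset (Sym2 W)) (F0 : Finset (Sym2 W))
    (hF : ∀ i ∈ s, ∃ σ : Equiv.Perm W, img σ F0 = Fs i)
    (hinj : Set.InjOn Fs (s : Set ι)) :
    kappa n (s.biUnion Fs) ≤ (kappa n F0).choose s.card := by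
  classical
  have hsub : copies n (s.biUnion Fs) ⊆
      ((copies n F0).powersetCard s.card).image (fun A => A.biUnion id) := by
    intro U hU
    obtain ⟨φ, -, rfl⟩ := Finset.mem_image.1 hU
    refine Finset.mem_image.2 ⟨s.image (fun i => img φ (Fs i)), ?_, ?_⟩
    · rw [Finset.mem_powersetCard]
      constructor
      · intro A hA
        obtain ⟨i, hi, rfl⟩ := Finset.mem_image.1 hA
        obtain ⟨σ, hσ⟩ := hF i hi
        rw [← hσ]
        exact img_perm_mem_copies φ σ F0
      · apply Finset.card_image_of_injOn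
        intro i hi j hj hij
        exact hinj hi hj (img_injective φ φ.injective hij)
    · show (s.image (fun i => img φ (Fs i))).biUnion id = img φ (s.biUnion Fs)
      rw [img_biUnion, Finset.image_biUnion]
      rfl
  calc kappa n (s.biUnion Fs) = (copies n (s.biUnion Fs)).card := rfl
    _ ≤ (((copies n F0).powersetCard s.card).image (fun A => A.biUnion id)).card :=
        Finset.card_le_card hsub
    _ ≤ ((copies n F0).powersetCard s.card).card := Finset.card_image_le
    _ = (kappa n F0).choose s.card := by rw [Finset.card_powersetCard]; rfl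

end Crest.Agent.R76.KitUnion
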