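import Mathlib
import Crest.Agent.R76.Defs
import Crest.Agent.R76.Ext
import Crest.Agent.R76.KitUnion
import Crest.Agent.R76.Orbit
import Crest.Agent.R76.Final

/-!
# S0076: the key lemma in *group form* (owner helper15)

`G = Perm (Fin n)` acts on sets of pairs.  `cntIn H J` = number of permutations mapping `J` into
`H`, `stab U` = number of permutations fixing `U` as a set.

* `GHyp n H p` : `stab U ≤ 2 p^|U| n!` for all `U ⊆ H`;
* `GKey n H r` : `cntIn H J ≤ r^|J| n!` for all `J ⊆ H`.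

`keyLemmaU_of_group`: if `GHyp n H p → GKey n H (C p)` for all `n, H, p`, then `KeyLemmaU C`.
-/

set_option autoImplicit false

namespace Crest.Agent.R76.Grp

open Finset

variable {n : ℕ}

/-- number of permutations mapping `J` into `H` -/
noncomputable def cntIn (H J : Finset (Sym2 (Fin n))) : ℕ :=
  (univ.filter (fun π : Equiv.Perm (Fin n) => img π J ⊆ H)).card

/-- order of the setwise stabiliser of `U` -/
noncomputable def stab (U : Finset (Sym2 (Fin n))) : ℕ :=
  (univ.filter (fun π : Equiv.Perm (Fin n) => img π U = U)).card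

/-- the orbit of `U` -/
noncomputable def orb (U : Finset (Sym2 (Fin n))) : Finset (Finset (Sym2 (Fin n))) :=
  univ.image (fun π : Equiv.Perm (Fin n) => img π U)

def GHyp (n : ℕ) (H : Finset (Sym2 (Fin n))) (p : ℝ) : Prop :=
  ∀ U ⊆ H, (stab U : ℝ) ≤ 2 * p ^ U.card * (n.factorial : ℝ)

def GKey (n : ℕ) (H : Finset (Sym2 (Fin n))) (r : ℝ) : Prop :=
  ∀ J ⊆ H, (cntIn H J : ℝ) ≤ r ^ J.card * (n.factorial : ℝ)

lemma img_mul (π ρ : Equiv.Perm (Fin n)) (U : Finset (Sym2 (Fin n))) :
    img (π * ρ : Equiv.Perm (Fin n)) U = img π (img ρ U) := by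
  rw [KitUnion.img_img]; rfl

lemma img_one (U : Finset (Sym2 (Fin n))) : img (1 : Equiv.Perm (Fin n)) U = U := by
  unfold img
  have : (Sym2.map ((1 : Equiv.Perm (Fin n)) : Fin n → Fin n)) = id := by
    funext e
    have : ((1 : Equiv.Perm (Fin n)) : Fin n → Fin n) = id := rfl
    rw [this, Sym2.map_id]
  rw [this, Finset.image_id]

lemma stab_pos (U : Finset (Sym2 (Fin n))) : 0 < stab U := by
  unfold stab
  exact Finset.card_pos.2 ⟨1, Finset.mem_filter.2 ⟨Finset.mem_univ _, img_one U⟩⟩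

/-- every fibre of `π ↦ π U` has `stab U` elements -/
lemma card_fiber (U V : Finset (Sym2 (Fin n))) (hV : V ∈ orb U) :
    (univ.filter (fun π : Equiv.Perm (Fin n) => img π U = V)).card = stab U := by
  obtain ⟨π0, -, rfl⟩ := Finset.mem_image.1 hV
  unfold stab
  refine Finset.card_bij' (fun π _ => π0⁻¹ * π) (fun π _ => π0 * π) ?_ ?_ ?_ ?_
  · intro π hπ
    simp only [Finset.mem_filter, Finset.mem_univ, true_and] at hπ ⊢
    rw [img_mul, hπ, ← img_mul, inv_mul_cancel, img_one]
  · intro π hπ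
    simp only [Finset.mem_filter, Finset.mem_univ, true_and] at hπ ⊢
    rw [img_mul, hπ]
  · intro π _; simp
  · intro π _; simp

lemma factorial_eq (U : Finset (Sym2 (Fin n))) : n.factorial = (orb U).card * stab U := by
  have h1 : (univ : Finset (Equiv.Perm (Fin n))).card = n.factorial := by
    rw [Finset.card_univ, Fintype.card_perm, Fintype.card_fin]
  have h2 := Finset.card_eq_sum_card_fiberwise (s := (univ : Finset (Equiv.Perm (Fin n))))
    (t := orb U) (f := fun π : Equiv.Perm (Fin n) => img π U)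
    (fun π _ => Finset.mem_image.2 ⟨π, Finset.mem_univ _, rfl⟩)
  rw [h1] at h2
  rw [h2, Finset.sum_congr rfl (fun V hV => card_fiber U V hV), Finset.sum_const, smul_eq_mul]

lemma cntIn_eq (H J : Finset (Sym2 (Fin n))) :
    cntIn H J = ((orb J).filter (fun V => V ⊆ H)).card * stab J := by
  unfold cntIn
  have h2 := Finset.card_eq_sum_card_fiberwise
    (s := univ.filter (fun π : Equiv.Perm (Fin n) => img π J ⊆ H))
    (t := (orb J).filter (fun V => V ⊆ H)) (f := fun π : Equiv.Perm (Fin n) => img π J)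
    (fun π hπ => by
      have hπ' := (Finset.mem_filter.1 hπ).2
      exact Finset.mem_coe.2 (Finset.mem_filter.2
        ⟨Finset.mem_image.2 ⟨π, Finset.mem_univ _, rfl⟩, hπ'⟩))
  rw [h2]
  have : ∀ V ∈ (orb J).filter (fun V => V ⊆ H),
      ((univ.filter (fun π : Equiv.Perm (Fin n) => img π J ⊆ H)).filter
        (fun π : Equiv.Perm (Fin n) => img π J = V)).card = stab J := by
    intro V hV
    obtain ⟨hV1, hV2⟩ := Finset.mem_filter.1 hV
    rw [← card_fiber J V hV1]
    congr 1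
    ext π
    simp only [Finset.mem_filter, Finset.mem_univ, true_and]
    constructor
    · rintro ⟨_, h⟩; exact h
    · intro h; exact ⟨h ▸ hV2, h⟩
  rw [Finset.sum_congr rfl this, Finset.sum_const, smul_eq_mul]

variable {W : Type} [Fintype W] [DecidableEq W]

lemma copies_eq_orb (φ0 : W ↪ Fin n) (F : Finset (Sym2 W)) : copies n F = orb (img φ0 F) := by
  unfold copies orb
  ext V
  simp only [Finset.mem_image, Finset.mem_univ, true_and]
  constructor
  · rintro ⟨φ, rfl⟩
    obtain ⟨π, hπ⟩ := Ext.exists_perm φ0 φ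
    refine ⟨π, ?_⟩
    rw [KitUnion.img_img]
    congr 1
    funext x
    exact hπ x
  · rintro ⟨π, rfl⟩
    refine ⟨φ0.trans π.toEmbedding, ?_⟩
    rw [KitUnion.img_img]
    rfl

lemma kappa_eq (φ0 : W ↪ Fin n) (F : Finset (Sym2 W)) : kappa n F = (orb (img φ0 F)).card := by
  unfold kappa; rw [copies_eq_orb φ0]

lemma subCount_le (φ0 : W ↪ Fin n) (E F : Finset (Sym2 W)) :
    subCount E F ≤ ((orb (img φ0 F)).filter (fun V => V ⊆ img φ0 E)).card := by
  unfold subCount
  refine Finset.card_le_card_of_injOn (fun F' => img φ0 F') ?_ ?_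
  · intro F' hF'
    have hF'' := Finset.mem_filter.1 (Finset.mem_coe.1 hF')
    obtain ⟨σ, rfl⟩ := hF''.2
    refine Finset.mem_coe.2 (Finset.mem_filter.2 ⟨?_, ?_⟩)
    · rw [← copies_eq_orb φ0]
      exact KitUnion.img_perm_mem_copies φ0 σ F
    · exact (Orbit.img_subset_img_iff φ0 φ0.injective _ _).2 (Finset.mem_powerset.1 hF''.1)
  · intro A _ B _ h
    exact KitUnion.img_injective φ0 φ0.injective h

theorem ghyp_of_expHyp (φ0 : W ↪ Fin n) (E : Finset (Sym2 W)) (p : ℝ)
    (h : ExpHyp n E p) : GHyp n (img φ0 E) p := by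
  intro U hU
  obtain ⟨F, hF, rfl⟩ := Finset.subset_image_iff.1 hU
  have hFE : F ⊆ E := by exact_mod_cast hF
  have h1 := h F hFE
  change (stab (img φ0 F) : ℝ) ≤ 2 * p ^ (img φ0 F).card * (n.factorial : ℝ)
  rw [Orbit.card_img φ0 φ0.injective, factorial_eq (img φ0 F), ← kappa_eq φ0 F]
  push_cast
  have hs : (0 : ℝ) ≤ (stab (img φ0 F) : ℝ) := Nat.cast_nonneg _
  nlinarith [mul_le_mul_of_nonneg_right h1 hs]

theorem spreadU_of_gkey (φ0 : W ↪ Fin n) (E : Finset (Sym2 W)) (r : ℝ)
    (hK : GKey n (img φ0 E) r) : SpreadU n E r := by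
  intro F hF
  have hJ : img φ0 F ⊆ img φ0 E := (Orbit.img_subset_img_iff φ0 φ0.injective _ _).2 hF
  have h1 := hK _ hJ
  rw [Orbit.card_img φ0 φ0.injective, cntIn_eq, factorial_eq (img φ0 F), ← kappa_eq φ0 F] at h1
  push_cast at h1
  have hs : (0 : ℝ) < (stab (img φ0 F) : ℝ) := by exact_mod_cast stab_pos _
  have h2 : ((subCount E F : ℕ) : ℝ) ≤
      (((orb (img φ0 F)).filter (fun V => V ⊆ img φ0 E)).card : ℝ) := by
    exact_mod_cast subCount_le φ0 E F
  have h3 : (((orb (img φ0 F)).filter (fun V => V ⊆ img φ0 E)).card : ℝ)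
      ≤ r ^ F.card * (kappa n F : ℝ) := by
    have : (((orb (img φ0 F)).filter (fun V => V ⊆ img φ0 E)).card : ℝ) * (stab (img φ0 F) : ℝ)
        ≤ (r ^ F.card * (kappa n F : ℝ)) * (stab (img φ0 F) : ℝ) := by
      rw [mul_assoc (r ^ F.card)]; exact h1
    exact le_of_mul_le_mul_right this hs
  exact h2.trans h3

/-- **Bridge**: the group form of the key lemma implies `KeyLemmaU C`. -/
theorem keyLemmaU_of_group (C : ℝ)
    (h : ∀ (n : ℕ) (H : Finset (Sym2 (Fin n))) (p : ℝ), 2 ≤ n → 0 < p → p ≤ 1 →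
      (∀ e ∈ H, ¬ e.IsDiag) → GHyp n H p → GKey n H (C * p)) : KeyLemmaU C := by
  intro n hn W _ _ H _ hW _ p hp0 hp1 hE
  obtain ⟨φ0⟩ : Nonempty (W ↪ Fin n) :=
    Function.Embedding.nonempty_of_card_le (by simpa using hW)
  refine spreadU_of_gkey φ0 _ _ (h n _ p hn hp0 hp1 ?_ (ghyp_of_expHyp φ0 _ p hE))
  intro e he
  obtain ⟨e', he', rfl⟩ := Finset.mem_image.1 he
  have hd : ¬ e'.IsDiag := H.not_isDiag_of_mem_edgeSet (SimpleGraph.mem_edgeFinset.mp he')
  intro hdiag
  apply hd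
  induction e' using Sym2.ind with
  | _ a b =>
    simp only [Sym2.map_mk, Sym2.mk_isDiag_iff] at hdiag ⊢
    exact φ0.injective hdiag

end Crest.Agent.R76.Grp
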