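import Mathlib
import Crest.Agent.R76.Defs

/-!
# S0076 counting toolkit K3: monotonicity / product bounds (helper27)

* `kappa_union_le`      : `kappa n (F ∪ F') ≤ kappa n F * kappa n F'`;
* `one_le_kappa`        : `1 ≤ kappa n F` when `card W ≤ n`;
* `kappa_le_pow`        : `kappa n F ≤ (n ^ 2) ^ F.card`;
* `subCount_le_choose`  : `subCount E F ≤ (E.card).choose F.card`;
* `one_le_subCount`     : `1 ≤ subCount E F` when `F ⊆ E`;
* `card_img`            : `(img φ F).card = F.card` for injective `φ`.
-/

set_option autoImplicit false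

namespace Crest.Agent.R76.KitMono

open Finset

variable {n : ℕ} {W : Type} [Fintype W] [DecidableEq W]

theorem img_union {V V' : Type} [DecidableEq V] [DecidableEq V'] (f : V → V')
    (F F' : Finset (Sym2 V)) : img f (F ∪ F') = img f F ∪ img f F' := by
  unfold img
  exact Finset.image_union F F'

theorem card_img {V V' : Type} [DecidableEq V'] (f : V → V') (hf : Function.Injective f)
    (F : Finset (Sym2 V)) : (img f F).card = F.card := by
  unfold img
  exact Finset.card_image_of_injective F (Sym2.map.injective hf)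

theorem kappa_union_le (F F' : Finset (Sym2 W)) :
    kappa n (F ∪ F') ≤ kappa n F * kappa n F' := by
  classical
  unfold kappa
  rw [← Finset.card_product]
  have hsub : copies n (F ∪ F') ⊆
      ((copies n F) ×ˢ (copies n F')).image (fun P => P.1 ∪ P.2) := by
    intro U hU
    obtain ⟨φ, -, rfl⟩ := Finset.mem_image.1 hU
    refine Finset.mem_image.2 ⟨(img φ F, img φ F'), ?_, ?_⟩
    · rw [Finset.mem_product]
      exact ⟨Finset.mem_image.2 ⟨φ, Finset.mem_univ _, rfl⟩,
        Finset.mem_image.2 ⟨φ, Finset.mem_univ _, rfl⟩⟩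
    · exact (img_union φ F F').symm
  exact (Finset.card_le_card hsub).trans Finset.card_image_le

theorem one_le_kappa (hW : Fintype.card W ≤ n) (F : Finset (Sym2 W)) : 1 ≤ kappa n F := by
  classical
  have hne : Nonempty (W ↪ Fin n) := by
    apply Function.Embedding.nonempty_of_card_le
    simpa using hW
  obtain ⟨φ⟩ := hne
  unfold kappa
  exact Finset.card_pos.2 ⟨img φ F, Finset.mem_image.2 ⟨φ, Finset.mem_univ _, rfl⟩⟩

theorem kappa_le_pow (F : Finset (Sym2 W)) : kappa n F ≤ (n ^ 2) ^ F.card := by
  classical
  -- a copy is determined by the function `e ↦ Sym2.map φ e` on `F`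
  have hsub : copies n F ⊆
      (Finset.univ : Finset (F → Sym2 (Fin n))).image
        (fun g => Finset.univ.image g) := by
    intro U hU
    obtain ⟨φ, -, rfl⟩ := Finset.mem_image.1 hU
    refine Finset.mem_image.2 ⟨fun e => Sym2.map φ e.1, Finset.mem_univ _, ?_⟩
    ext z
    simp only [img, Finset.mem_image, Finset.mem_univ, true_and, Subtype.exists, exists_prop]
  have h1 : kappa n F ≤ Fintype.card (F → Sym2 (Fin n)) := by
    unfold kappa
    refine (Finset.card_le_card hsub).trans (Finset.card_image_le.trans ?_)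
    simp
  have h2 : Fintype.card (F → Sym2 (Fin n)) = (Fintype.card (Sym2 (Fin n))) ^ F.card := by
    rw [Fintype.card_fun]
    simp
  have h3 : Fintype.card (Sym2 (Fin n)) ≤ n ^ 2 := by
    rw [Sym2.card, Fintype.card_fin]
    rw [Nat.choose_two_right]
    have : (n + 1) * (n + 1 - 1) / 2 ≤ n ^ 2 := by
      simp only [Nat.add_sub_cancel]
      apply Nat.div_le_of_le_mul
      rcases Nat.eq_zero_or_pos n with h | h
      · subst h; simp
      · nlinarith
    exact this
  rw [h2] at h1
  exact h1.trans (Nat.pow_le_pow_left h3 _)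

theorem subCount_le_choose (E F : Finset (Sym2 W)) :
    subCount E F ≤ (E.card).choose F.card := by
  classical
  unfold subCount
  rw [← Finset.card_powersetCard]
  apply Finset.card_le_card
  intro F' hF'
  rw [Finset.mem_filter, Finset.mem_powerset] at hF'
  obtain ⟨hsub, σ, rfl⟩ := hF'
  rw [Finset.mem_powersetCard]
  exact ⟨hsub, card_img σ σ.injective F⟩

theorem one_le_subCount (E F : Finset (Sym2 W)) (hF : F ⊆ E) : 1 ≤ subCount E F := by
  classical
  unfold subCount
  refine Finset.card_pos.2 ⟨F, ?_⟩
  rw [Finset.mem_filter, Finset.mem_powerset]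
  refine ⟨hF, 1, ?_⟩
  unfold img
  ext z
  simp

end Crest.Agent.R76.KitMono
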