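import Mathlib

/-! T7: numerical inequality for the number of rounds. -/

set_option autoImplicit false

namespace Crest.Agent.R76

theorem Num.q_le (h : ℕ) (hh : 1 ≤ h) (x : ℝ) (hx0 : 0 ≤ x) (hx1 : x ≤ 1) :
    1 - (1 - x) ^ (Nat.size h) ≤ x * (1 + Real.logb 2 (h : ℝ)) := by
  have hpos : 0 < Nat.size h := Nat.size_pos.2 hh
  have h2 : 2 ^ (Nat.size h - 1) ≤ h := Nat.lt_size.1 (by omega)
  have hlog : ((Nat.size h - 1 : ℕ) : ℝ) ≤ Real.logb 2 (h : ℝ) := by
    rw [Real.le_logb_iff_rpow_le (by norm_num) (by exact_mod_cast hh), Real.rpow_natCast]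
    exact_mod_cast h2
  have hsz : (Nat.size h : ℝ) ≤ 1 + Real.logb 2 (h : ℝ) := by
    have : (Nat.size h : ℝ) = ((Nat.size h - 1 : ℕ) : ℝ) + 1 := by
      have : Nat.size h = (Nat.size h - 1) + 1 := by omega
      exact_mod_cast this
    linarith
  have hb := one_add_mul_le_pow (a := -x) (by linarith) (Nat.size h)
  have hb' : 1 - (Nat.size h : ℝ) * x ≤ (1 - x) ^ (Nat.size h) := by
    have e1 : (1 : ℝ) + (Nat.size h : ℝ) * (-x) = 1 - (Nat.size h : ℝ) * x := by ring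
    have e2 : (1 : ℝ) + -x = 1 - x := by ring
    rw [e1, e2] at hb
    exact hb
  have : (Nat.size h : ℝ) * x ≤ x * (1 + Real.logb 2 (h : ℝ)) := by
    rw [mul_comm]
    exact mul_le_mul_of_nonneg_left hsz hx0
  linarith

end Crest.Agent.R76
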