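import Crest.Agent.R76.Bern

/-!
# S0076: the Park–Pham theorem in Bernoulli form

`PP.main`: if every cover of an `l`-bounded family `HH` costs at least `c` at density `r`, then a
random set of density `1 - (1 - L r)^(size l)` (`L ≥ 16`) misses `⟨HH⟩` with probability at most
`1 / (2 c)`.  The proof is the minimal-fragment argument of Park and Pham, run with independent
coins and with halving of the size bound.
-/

set_option autoImplicit false
set_option linter.unusedSectionVars false

namespace Crest.Agent.R76.PP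

open Finset Crest.Agent.R76.Bern

variable {X : Type*} [Fintype X] [DecidableEq X]

lemma exists_frag (HH : Finset (Finset X)) (W S : Finset X) (hS : S ∈ HH) :
    ∃ S' ∈ HH, S' ⊆ W ∪ S ∧ ∀ S'' ∈ HH, S'' ⊆ W ∪ S → (S' \ W).card ≤ (S'' \ W).card := by
  have hne : (HH.filter (fun S' => S' ⊆ W ∪ S)).Nonempty :=
    ⟨S, by simp [hS, Finset.subset_union_right]⟩
  obtain ⟨S', h1, h2⟩ := Finset.exists_min_image _ (fun S' => (S' \ W).card) hne
  rw [Finset.mem_filter] at h1
  exact ⟨S', h1.1, h1.2, fun S'' h3 h4 => h2 S'' (by simp [h3, h4])⟩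

/-- the minimal fragment of `S` with respect to `W` -/
noncomputable def frag (HH : Finset (Finset X)) (W S : Finset X) : Finset X :=
  if hS : S ∈ HH then (Classical.choose (exists_frag HH W S hS)) \ W else ∅

/-- a canonical member of `HH` inside `Z` -/
noncomputable def sel (HH : Finset (Finset X)) (Z : Finset X) : Finset X :=
  if h : ∃ S ∈ HH, S ⊆ Z then Classical.choose h else ∅

lemma sel_card_le (HH : Finset (Finset X)) (l : ℕ) (hl : ∀ S ∈ HH, S.card ≤ l) (Z : Finset X) :
    (sel HH Z).card ≤ l := by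
  unfold sel
  split_ifs with h
  · exact hl _ (Classical.choose_spec h).1
  · simp

lemma frag_spec (HH : Finset (Finset X)) (W S : Finset X) (hS : S ∈ HH) :
    frag HH W S ⊆ S ∧ Disjoint W (frag HH W S) ∧ (∃ S' ∈ HH, S' ⊆ W ∪ frag HH W S) ∧
      frag HH W S ⊆ sel HH (W ∪ frag HH W S) := by
  obtain ⟨h1, h2, h3⟩ := Classical.choose_spec (exists_frag HH W S hS)
  set S' := Classical.choose (exists_frag HH W S hS) with hS'
  have hT : frag HH W S = S' \ W := by simp [frag, hS, hS']
  have hsub : S' \ W ⊆ S := by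
    intro x hx
    rw [Finset.mem_sdiff] at hx
    have := h2 hx.1
    rw [Finset.mem_union] at this
    exact this.resolve_left hx.2
  have hex : ∃ S'' ∈ HH, S'' ⊆ W ∪ S' \ W := ⟨S', h1, by
    intro x hx
    by_cases hxW : x ∈ W
    · exact Finset.mem_union_left _ hxW
    · exact Finset.mem_union_right _ (Finset.mem_sdiff.2 ⟨hx, hxW⟩)⟩
  rw [hT]
  refine ⟨hsub, Finset.disjoint_sdiff, hex, ?_⟩
  -- the canonical member
  have hsel : sel HH (W ∪ S' \ W) = Classical.choose hex := by
    unfold sel; rw [dif_pos hex]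
  obtain ⟨k1, k2⟩ := Classical.choose_spec hex
  set S₀ := Classical.choose hex with hS₀
  rw [hsel]
  have k3 : S₀ ⊆ W ∪ S := k2.trans (Finset.union_subset_union_right hsub)
  have k4 : S₀ \ W ⊆ S' \ W := by
    intro x hx
    rw [Finset.mem_sdiff] at hx
    have := k2 hx.1
    rw [Finset.mem_union] at this
    exact this.resolve_left hx.2
  have k5 : S₀ \ W = S' \ W := Finset.eq_of_subset_of_card_le k4 (h3 S₀ k1 k3)
  rw [← k5]
  exact Finset.sdiff_subset

/-- the big fragments -/
noncomputable def big (HH : Finset (Finset X)) (l' : ℕ) (W : Finset X) : Finset (Finset X) :=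
  (HH.image (frag HH W)).filter (fun T => l' < T.card)

/-- the small fragments -/
noncomputable def small (HH : Finset (Finset X)) (l' : ℕ) (W : Finset X) : Finset (Finset X) :=
  (HH.image (frag HH W)).filter (fun T => T.card ≤ l')

/-- expected cost of the big fragments -/
lemma cost_big (HH : Finset (Finset X)) (l l' : ℕ) (hl : ∀ S ∈ HH, S.card ≤ l)
    (r L : ℝ) (hr : 0 ≤ r) (hL : 1 ≤ L) (hLr : L * r ≤ 1) :
    ∑ W : Finset X, wt (L * r) W * ∑ T ∈ big HH l' W, r ^ T.card
      ≤ 2 ^ l * (1 / L) ^ (l' + 1) := by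
  have hL0 : 0 < L := by linarith
  have hq0 : 0 ≤ L * r := by positivity
  have hinv0 : 0 ≤ 1 / L := by positivity
  have hinv1 : 1 / L ≤ 1 := by rw [div_le_one hL0]; exact hL
  -- pointwise bound
  have step1 : ∀ W : Finset X, ∀ T ∈ big HH l' W,
      wt (L * r) W * r ^ T.card ≤ (1 / L) ^ (l' + 1) * wt (L * r) (W ∪ T) := by
    intro W T hT
    rw [big, Finset.mem_filter, Finset.mem_image] at hT
    obtain ⟨⟨S, hS, rfl⟩, hcard⟩ := hT
    obtain ⟨-, hd, -, -⟩ := frag_spec HH W S hS
    set T := frag HH W S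
    have e1 : r ^ T.card = (1 / L) ^ T.card * (L * r) ^ T.card := by
      rw [← mul_pow]; congr 1; field_simp
    have e2 : (1 / L) ^ T.card ≤ (1 / L) ^ (l' + 1) := pow_le_pow_of_le_one hinv0 hinv1 hcard
    have e3 := wt_mul_pow_le hq0 hLr W T hd
    have e4 : 0 ≤ wt (L * r) W * (L * r) ^ T.card :=
      mul_nonneg (wt_nonneg hq0 hLr W) (pow_nonneg hq0 _)
    calc wt (L * r) W * r ^ T.card = (1 / L) ^ T.card * (wt (L * r) W * (L * r) ^ T.card) := by
          rw [e1]; ring
      _ ≤ (1 / L) ^ (l' + 1) * (wt (L * r) W * (L * r) ^ T.card) :=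
          mul_le_mul_of_nonneg_right e2 e4
      _ ≤ (1 / L) ^ (l' + 1) * wt (L * r) (W ∪ T) :=
          mul_le_mul_of_nonneg_left e3 (pow_nonneg hinv0 _)
  -- for fixed `T`
  have step2 : ∀ T : Finset X,
      ∑ W ∈ Finset.univ.filter (fun W => T ∈ big HH l' W), wt (L * r) (W ∪ T)
        ≤ ∑ Z ∈ Finset.univ.filter (fun Z => T ⊆ sel HH Z), wt (L * r) Z := by
    intro T
    have hinj : Set.InjOn (fun W : Finset X => W ∪ T)
        (Finset.univ.filter (fun W => T ∈ big HH l' W) : Finset (Finset X)) := by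
      intro W₁ h₁ W₂ h₂ h
      simp only [Finset.coe_filter, Finset.mem_univ, true_and, Set.mem_ofPred_eq] at h₁ h₂
      have d : ∀ W, T ∈ big HH l' W → Disjoint W T := by
        intro W hT
        rw [big, Finset.mem_filter, Finset.mem_image] at hT
        obtain ⟨⟨S, hS, rfl⟩, -⟩ := hT
        exact (frag_spec HH W S hS).2.1
      have a1 : (W₁ ∪ T) \ T = W₁ := Finset.union_sdiff_cancel_right (d _ h₁)
      have a2 : (W₂ ∪ T) \ T = W₂ := Finset.union_sdiff_cancel_right (d _ h₂)
      have h' : W₁ ∪ T = W₂ ∪ T := h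
      rw [← a1, ← a2, h']
    rw [← Finset.sum_image (f := fun Z => wt (L * r) Z) hinj]
    refine Finset.sum_le_sum_of_subset_of_nonneg ?_ (fun Z _ _ => wt_nonneg hq0 hLr Z)
    intro Z hZ
    rw [Finset.mem_image] at hZ
    obtain ⟨W, hW, rfl⟩ := hZ
    rw [Finset.mem_filter] at hW
    have hT := hW.2
    rw [big, Finset.mem_filter, Finset.mem_image] at hT
    obtain ⟨⟨S, hS, rfl⟩, -⟩ := hT
    simp only [Finset.mem_filter, Finset.mem_univ, true_and]
    exact (frag_spec HH W S hS).2.2.2
  calc ∑ W : Finset X, wt (L * r) W * ∑ T ∈ big HH l' W, r ^ T.card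
      = ∑ W : Finset X, ∑ T ∈ big HH l' W, wt (L * r) W * r ^ T.card := by
        simp only [Finset.mul_sum]
    _ ≤ ∑ W : Finset X, ∑ T ∈ big HH l' W, (1 / L) ^ (l' + 1) * wt (L * r) (W ∪ T) :=
        Finset.sum_le_sum fun W _ => Finset.sum_le_sum fun T hT => step1 W T hT
    _ = (1 / L) ^ (l' + 1) * ∑ W : Finset X, ∑ T : Finset X,
          (if T ∈ big HH l' W then wt (L * r) (W ∪ T) else 0) := by
        rw [Finset.mul_sum]
        refine Finset.sum_congr rfl fun W _ => ?_
        rw [← Finset.mul_sum]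
        congr 1
        rw [← Finset.sum_filter]
        refine Finset.sum_congr ?_ fun _ _ => rfl
        ext T; simp
    _ = (1 / L) ^ (l' + 1) * ∑ T : Finset X,
          ∑ W ∈ Finset.univ.filter (fun W => T ∈ big HH l' W), wt (L * r) (W ∪ T) := by
        rw [Finset.sum_comm]
        congr 1
        refine Finset.sum_congr rfl fun T _ => ?_
        rw [Finset.sum_filter]
    _ ≤ (1 / L) ^ (l' + 1) * ∑ T : Finset X,
          ∑ Z ∈ Finset.univ.filter (fun Z => T ⊆ sel HH Z), wt (L * r) Z :=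
        mul_le_mul_of_nonneg_left (Finset.sum_le_sum fun T _ => step2 T) (pow_nonneg hinv0 _)
    _ = (1 / L) ^ (l' + 1) * ∑ Z : Finset X, wt (L * r) Z * 2 ^ (sel HH Z).card := by
        congr 1
        simp only [Finset.sum_filter]
        rw [Finset.sum_comm]
        refine Finset.sum_congr rfl fun Z _ => ?_
        rw [← Finset.sum_filter, Finset.sum_const, nsmul_eq_mul, mul_comm]
        congr 1
        have : (Finset.univ.filter (fun T => T ⊆ sel HH Z)) = (sel HH Z).powerset := by
          ext T; simp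
        rw [this, Finset.card_powerset]
        push_cast; ring
    _ ≤ (1 / L) ^ (l' + 1) * ∑ Z : Finset X, wt (L * r) Z * 2 ^ l := by
        refine mul_le_mul_of_nonneg_left (Finset.sum_le_sum fun Z _ => ?_) (pow_nonneg hinv0 _)
        refine mul_le_mul_of_nonneg_left ?_ (wt_nonneg hq0 hLr Z)
        exact pow_le_pow_right₀ (by norm_num) (sel_card_le HH l hl Z)
    _ = 2 ^ l * (1 / L) ^ (l' + 1) := by
        rw [← Finset.sum_mul, sum_wt]; ring

lemma size_half (l : ℕ) (hl : 0 < l) : Nat.size l = Nat.size (l / 2) + 1 := by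
  have h1 : Nat.bit (Nat.bodd l) (Nat.div2 l) = l := Nat.bit_bodd_div2 l
  have h2 : Nat.size (Nat.bit (Nat.bodd l) (Nat.div2 l)) = Nat.succ (Nat.size (Nat.div2 l)) :=
    Nat.size_bit (by rw [h1]; omega)
  rw [h1, Nat.div2_val] at h2
  exact h2

/-- numerical step of the induction -/
lemma eps_step (l : ℕ) (hl : 0 < l) (L : ℝ) (hL : 16 ≤ L) :
    (1 / 2 - 1 / 2 * (1 / 2 : ℝ) ^ (l / 2)) + 2 ^ l * (1 / L) ^ (l / 2 + 1)
      ≤ 1 / 2 - 1 / 2 * (1 / 2 : ℝ) ^ l := by
  set l' := l / 2 with hl'
  set a : ℝ := (1 / 2 : ℝ) ^ l' with ha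
  have ha0 : 0 < a := by positivity
  have ha1 : a ≤ 1 := pow_le_one₀ (by norm_num) (by norm_num)
  have h1 : (1 / 2 : ℝ) ^ l ≤ a / 2 := by
    have : l' + 1 ≤ l := by omega
    calc (1 / 2 : ℝ) ^ l ≤ (1 / 2 : ℝ) ^ (l' + 1) :=
          pow_le_pow_of_le_one (by norm_num) (by norm_num) this
      _ = a / 2 := by rw [pow_succ]; ring
  have h2 : (2 : ℝ) ^ l * (1 / L) ^ (l' + 1) ≤ a ^ 2 / 8 := by
    have b1 : (2 : ℝ) ^ l ≤ 2 ^ (2 * l' + 1) := pow_le_pow_right₀ (by norm_num) (by omega)
    have b2 : (1 / L) ^ (l' + 1) ≤ (1 / 16 : ℝ) ^ (l' + 1) := by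
      refine pow_le_pow_left₀ (by positivity) ?_ _
      exact one_div_le_one_div_of_le (by norm_num) hL
    calc (2 : ℝ) ^ l * (1 / L) ^ (l' + 1) ≤ 2 ^ (2 * l' + 1) * (1 / 16 : ℝ) ^ (l' + 1) :=
          mul_le_mul b1 b2 (by positivity) (by positivity)
      _ = a ^ 2 / 8 := by
          rw [ha, pow_succ, pow_succ, pow_mul, ← pow_mul (1 / 2 : ℝ) l' 2, mul_comm l' 2,
            pow_mul (1 / 2 : ℝ) 2 l']
          have : ((2:ℝ) ^ 2) ^ l' * (1 / 16 : ℝ) ^ l' = ((1 / 2 : ℝ) ^ 2) ^ l' := by
            rw [← mul_pow]; norm_num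
          calc ((2:ℝ) ^ 2) ^ l' * 2 * ((1 / 16 : ℝ) ^ l' * (1 / 16))
              = (((2:ℝ) ^ 2) ^ l' * (1 / 16 : ℝ) ^ l') / 8 := by ring
            _ = ((1 / 2 : ℝ) ^ 2) ^ l' / 8 := by rw [this]
  nlinarith

/-- the bad event -/
abbrev Bad (HH : Finset (Finset X)) (Wd : Finset X) : Prop := ¬ ∃ S ∈ HH, S ⊆ Wd

theorem main_aux (r L : ℝ) (hr : 0 ≤ r) (hL : 16 ≤ L) (hLr : L * r ≤ 1) (l : ℕ) :
    ∀ (HH : Finset (Finset X)), (∀ S ∈ HH, S.card ≤ l) → ∀ c : ℝ,
    (∀ GG : Finset (Finset X), (∀ S ∈ HH, ∃ U ∈ GG, U ⊆ S) → c ≤ ∑ U ∈ GG, r ^ U.card) →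
    c * prob (1 - (1 - L * r) ^ (Nat.size l)) (Bad HH) ≤ 1 / 2 - 1 / 2 * (1 / 2 : ℝ) ^ l := by
  have hq0 : 0 ≤ L * r := by positivity
  have hQ : ∀ k : ℕ, 0 ≤ 1 - (1 - L * r) ^ k ∧ 1 - (1 - L * r) ^ k ≤ 1 := by
    intro k
    have h1 : 0 ≤ (1 - L * r) ^ k := pow_nonneg (by linarith) _
    have h2 : (1 - L * r) ^ k ≤ 1 := pow_le_one₀ (by linarith) (by linarith)
    constructor <;> linarith
  induction l using Nat.strong_induction_on with
  | _ l ih =>
    intro HH hl c hc
    rcases Nat.eq_zero_or_pos l with rfl | hpos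
    · -- base case
      simp only [pow_zero, mul_one, sub_self]
      by_cases he : (∅ : Finset X) ∈ HH
      · have : prob (1 - (1 - L * r) ^ (Nat.size 0)) (Bad HH) = 0 := by
          unfold prob
          refine Finset.sum_eq_zero fun W _ => ?_
          have : ¬ Bad HH W := not_not.2 ⟨∅, he, Finset.empty_subset _⟩
          simp [this]
        rw [this, mul_zero]
      · have hHH : HH = ∅ := by
          rw [Finset.eq_empty_iff_forall_notMem]
          intro S hS
          have := hl S hS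
          rw [Nat.le_zero, Finset.card_eq_zero] at this
          exact he (this ▸ hS)
        have hc0 : c ≤ 0 := by
          have := hc ∅ (by simp [hHH])
          simpa using this
        exact mul_nonpos_of_nonpos_of_nonneg hc0 (prob_nonneg (hQ _).1 (hQ _).2 _)
    · -- induction step
      set l' := l / 2 with hl'
      have hlt : l' < l := Nat.div_lt_self hpos (by norm_num)
      rw [size_half l hpos]
      set q' : ℝ := 1 - (1 - L * r) ^ (Nat.size l') with hq'
      set q : ℝ := 1 - (1 - L * r) ^ (Nat.size l' + 1) with hq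
      have hqq : 1 - q = (1 - L * r) * (1 - q') := by
        rw [hq, hq', pow_succ]; ring
      rcases le_or_gt c 0 with hc0 | hc0
      · have h1 : c * prob q (Bad HH) ≤ 0 :=
          mul_nonpos_of_nonpos_of_nonneg hc0 (prob_nonneg (hQ _).1 (hQ _).2 _)
        have h2 : (1 / 2 : ℝ) ^ l ≤ 1 := pow_le_one₀ (by norm_num) (by norm_num)
        linarith
      · -- for each `W₁`
        have key : ∀ W₁ : Finset X,
            c * ∑ W₂ : Finset X, wt q' W₂ * (if Bad HH (W₁ ∪ W₂) then (1:ℝ) else 0)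
              ≤ (1 / 2 - 1 / 2 * (1 / 2 : ℝ) ^ l') + ∑ T ∈ big HH l' W₁, r ^ T.card := by
          intro W₁
          have hsm : ∀ S ∈ small HH l' W₁, S.card ≤ l' := by
            intro S hS
            rw [small, Finset.mem_filter] at hS
            exact hS.2
          set cost : ℝ := ∑ T ∈ big HH l' W₁, r ^ T.card with hcost
          have hcost0 : 0 ≤ cost := Finset.sum_nonneg fun T _ => pow_nonneg hr _
          have hcov : ∀ GG : Finset (Finset X), (∀ S ∈ small HH l' W₁, ∃ U ∈ GG, U ⊆ S) →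
              c - cost ≤ ∑ U ∈ GG, r ^ U.card := by
            intro GG hGG
            have h1 : c ≤ ∑ U ∈ GG ∪ big HH l' W₁, r ^ U.card := by
              refine hc _ fun S hS => ?_
              by_cases hb : l' < (frag HH W₁ S).card
              · exact ⟨frag HH W₁ S, Finset.mem_union_right _ (by
                  rw [big, Finset.mem_filter]
                  exact ⟨Finset.mem_image_of_mem _ hS, hb⟩), (frag_spec HH W₁ S hS).1⟩
              · obtain ⟨U, hU, hUs⟩ := hGG (frag HH W₁ S) (by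
                  rw [small, Finset.mem_filter]
                  exact ⟨Finset.mem_image_of_mem _ hS, not_lt.1 hb⟩)
                exact ⟨U, Finset.mem_union_left _ hU, hUs.trans (frag_spec HH W₁ S hS).1⟩
            have h2 : ∑ U ∈ GG ∪ big HH l' W₁, r ^ U.card
                ≤ ∑ U ∈ GG, r ^ U.card + cost := by
              rw [← Finset.sum_union_inter]
              have : 0 ≤ ∑ U ∈ GG ∩ big HH l' W₁, r ^ U.card :=
                Finset.sum_nonneg fun T _ => pow_nonneg hr _
              linarith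
            linarith
          have hih := ih l' hlt (small HH l' W₁) hsm (c - cost) hcov
          have hp0 := prob_nonneg (hQ (Nat.size l')).1 (hQ (Nat.size l')).2 (Bad (small HH l' W₁))
          have hp1 := prob_le_one (hQ (Nat.size l')).1 (hQ (Nat.size l')).2 (Bad (small HH l' W₁))
          have hle : ∑ W₂ : Finset X, wt q' W₂ * (if Bad HH (W₁ ∪ W₂) then (1:ℝ) else 0)
              ≤ prob q' (Bad (small HH l' W₁)) := by
            unfold prob
            refine Finset.sum_le_sum fun W₂ _ => ?_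
            refine mul_le_mul_of_nonneg_left ?_ (wt_nonneg (hQ _).1 (hQ _).2 W₂)
            by_cases hb : Bad HH (W₁ ∪ W₂)
            · have : Bad (small HH l' W₁) W₂ := by
                rintro ⟨T, hT, hTW⟩
                rw [small, Finset.mem_filter, Finset.mem_image] at hT
                obtain ⟨⟨S, hS, rfl⟩, -⟩ := hT
                obtain ⟨S', hS', hsub⟩ := (frag_spec HH W₁ S hS).2.2.1
                exact hb ⟨S', hS', hsub.trans (Finset.union_subset_union_right hTW)⟩
              rw [if_pos hb, if_pos this]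
            · rw [if_neg hb]
              split_ifs <;> norm_num
          calc c * ∑ W₂ : Finset X, wt q' W₂ * (if Bad HH (W₁ ∪ W₂) then (1:ℝ) else 0)
              ≤ c * prob q' (Bad (small HH l' W₁)) := mul_le_mul_of_nonneg_left hle hc0.le
            _ = (c - cost) * prob q' (Bad (small HH l' W₁))
                  + cost * prob q' (Bad (small HH l' W₁)) := by ring
            _ ≤ (1 / 2 - 1 / 2 * (1 / 2 : ℝ) ^ l') + cost := by
                have : cost * prob q' (Bad (small HH l' W₁)) ≤ cost := by nlinarith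
                linarith
        have hcb := cost_big HH l l' hl r L hr (by linarith) hLr
        calc c * prob q (Bad HH)
            = ∑ W₁ : Finset X, wt (L * r) W₁ *
                (c * ∑ W₂ : Finset X, wt q' W₂ * (if Bad HH (W₁ ∪ W₂) then (1:ℝ) else 0)) := by
              unfold prob
              rw [← union_lemma (L * r) q' q hqq, Finset.mul_sum]
              refine Finset.sum_congr rfl fun W₁ _ => ?_
              rw [Finset.mul_sum, Finset.mul_sum, Finset.mul_sum]
              refine Finset.sum_congr rfl fun W₂ _ => ?_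
              ring
          _ ≤ ∑ W₁ : Finset X, wt (L * r) W₁ *
                ((1 / 2 - 1 / 2 * (1 / 2 : ℝ) ^ l') + ∑ T ∈ big HH l' W₁, r ^ T.card) :=
              Finset.sum_le_sum fun W₁ _ =>
                mul_le_mul_of_nonneg_left (key W₁) (wt_nonneg hq0 hLr W₁)
          _ = (1 / 2 - 1 / 2 * (1 / 2 : ℝ) ^ l')
                + ∑ W₁ : Finset X, wt (L * r) W₁ * ∑ T ∈ big HH l' W₁, r ^ T.card := by
              simp only [mul_add]
              rw [Finset.sum_add_distrib, ← Finset.sum_mul, sum_wt, one_mul]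
          _ ≤ (1 / 2 - 1 / 2 * (1 / 2 : ℝ) ^ l') + 2 ^ l * (1 / L) ^ (l' + 1) := by linarith
          _ ≤ 1 / 2 - 1 / 2 * (1 / 2 : ℝ) ^ l := eps_step l hpos L hL

/-- **Park–Pham theorem, Bernoulli form.** -/
theorem main (HH : Finset (Finset X)) (l : ℕ)
    (hl : ∀ S ∈ HH, S.card ≤ l) (r L : ℝ) (hr : 0 ≤ r) (hL : 16 ≤ L) (hLr : L * r ≤ 1) (c : ℝ)
    (hc : ∀ GG : Finset (Finset X), (∀ S ∈ HH, ∃ U ∈ GG, U ⊆ S) → c ≤ ∑ U ∈ GG, r ^ U.card) :
    c * Bern.prob (1 - (1 - L * r) ^ (Nat.size l)) (fun Wd => ¬ ∃ S ∈ HH, S ⊆ Wd) ≤ 1 / 2 := by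
  have h := main_aux r L hr hL hLr l HH hl c hc
  have h2 : (0 : ℝ) ≤ (1 / 2 : ℝ) ^ l := by positivity
  have h3 : c * prob (1 - (1 - L * r) ^ (Nat.size l)) (Bad HH) ≤ 1 / 2 := by linarith
  exact h3

end Crest.Agent.R76.PP
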